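import Vale.Agent.P167.FK.Defs
import Vale.Agent.P167.H685.Ident

/-!
# P167, block GQ8: Russo-Seymour-Welsh for the critical random-cluster model, shared statements

`θ` is the angle of the Baxter-Kelland-Wu mapping: `√q = 2 cos θ`, `0 ≤ θ ≤ π/3` (`1 ≤ q ≤ 4`).
`ET θ M L` is the expectation for the loop model on the `M × L` torus with weight `2 cos θ` per
contractible loop and `2` per non-contractible loop; the observables are functions of the periodic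
configuration of the plane.
-/

namespace Vale.Agent.P167.K8

open Finset Filter Topology
open Vale.Agent.P145.FB (PStep PConn)
open Vale.Agent.P152 (Edge Ori vw wt unroll)
open Vale.Agent.P167.A (Grid plane torus red redE)
open Vale.Agent.P167.H685 (orbs orb unR fs pa bs sgb)
open Vale.Agent.P167.FK (Ex Pr Bq eta0 eta1 ArmPx ArmDx PC DC du IncF)

/-! ## Torus -/

/-- The product over the orbits of the torus of `2 cos (sum of θ/4 * turn + a * sign)`. -/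
noncomputable def Wa (θ : ℝ) (M L : ℕ) [NeZero M] [NeZero L] (a : Edge (ZMod M × ZMod L) → ℝ)
    (ρ : ZMod M × ZMod L → Bool) : ℝ :=
  open Classical in
  if h : Even M ∧ Even L then
    ∏ O ∈ orbs ((torus M L h.1 h.2).nxP ρ),
      2 * Real.cos (∑ e ∈ O, (θ / 4 * (torus M L h.1 h.2).turn ρ e + a e * (torus M L h.1 h.2).sg e))
  else 1

/-- The weight of a configuration of the torus. -/
noncomputable def wT (θ : ℝ) (M L : ℕ) [NeZero M] [NeZero L] (ρ : ZMod M × ZMod L → Bool) : ℝ :=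
  Wa θ M L 0 ρ

/-- Expectation on the torus of a function of the periodic configuration. -/
noncomputable def ET (θ : ℝ) (M L : ℕ) [NeZero M] [NeZero L] (F : Cfg → ℝ) : ℝ :=
  (∑ ρ : ZMod M × ZMod L → Bool, wT θ M L ρ * F (unR ρ)) / ∑ ρ : ZMod M × ZMod L → Bool, wT θ M L ρ

/-- K.1: positivity. -/
def K_pos : Prop := ∀ θ : ℝ, 0 ≤ θ → θ < Real.pi / 2 → ∀ (M L : ℕ) [NeZero M] [NeZero L]
  (ρ : ZMod M × ZMod L → Bool), 0 < wT θ M L ρ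

/-- K.2: finite energy. -/
def K_flip : Prop := ∀ θ : ℝ, 0 ≤ θ → θ ≤ Real.pi / 3 → ∀ (M L : ℕ) [NeZero M] [NeZero L]
  (ρ : ZMod M × ZMod L → Bool) (v : ZMod M × ZMod L) (b : Bool),
  wT θ M L (Function.update ρ v b) ≤ 4 * wT θ M L ρ

/-- K.3: even translations. -/
def K_shift : Prop := ∀ (θ : ℝ) (M L : ℕ) [NeZero M] [NeZero L] (F : Cfg → ℝ) (x y : ℤ),
  ET θ M L (fun ω => F (fun v => ω (v.1 + 2 * x, v.2 + 2 * y))) = ET θ M L F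

/-- K.4: duality. -/
def K_dual : Prop := ∀ (θ : ℝ) (M L : ℕ) [NeZero M] [NeZero L] (F : Cfg → ℝ), Even M → Even L →
  ET θ M L (fun ω => F (du ω)) = ET θ M L F

/-! ## Free exploration -/

/-- The primal cluster of `s` touches only squares of `B`. -/
def Inn (B : Finset (ℤ × ℤ)) (ω : Cfg) (s : ℤ × ℤ) : Prop :=
  ∀ t, PC ω s t → ∀ v, FK.pa v = t ∨ FK.pb v = t → v ∈ B

open Classical in
/-- The configuration which keeps only the primal clusters which touch only squares of `B`. -/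
noncomputable def fin (B : Finset (ℤ × ℤ)) (ω : Cfg) : Cfg :=
  fun v => decide (v ∈ B ∧ ω v = true ∧ Inn B ω (FK.pa v))

/-- K.5: the law of the inner clusters is a mixture of free measures. -/
def K_rb : Prop := ∀ θ : ℝ, 0 ≤ θ → θ ≤ Real.pi / 3 → ∀ (R : ℤ) (M L : ℕ) [NeZero M] [NeZero L],
  1 ≤ R → Even M → Even L → 2 * R + 6 ≤ M → 2 * R + 6 ≤ L → ∀ (B : Finset (ℤ × ℤ)), B ⊆ Bq 0 R →
  ∀ (F : Cfg → ℝ) (b : ℝ), (∀ ω, 0 ≤ F ω) → (∀ D, D ⊆ B → Ex (2 * Real.cos θ) D eta0 F ≤ b) →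
  ET θ M L (fun ω => F (fin B ω)) ≤ b

/-- Number of the primal clusters which cross the annulus with centre `x` and radii `r`, `R`. -/
noncomputable def NP (x : ℤ × ℤ) (r R : ℤ) (ω : Cfg) : ℕ :=
  Set.ncard {C : Set (ℤ × ℤ) | ∃ s t, Even (s.1 + s.2) ∧ nm (s - x) ≤ r ∧ R ≤ nm (t - x) ∧
    PC ω s t ∧ C = {u | PC ω s u}}

/-- Free primal arm bound, uniform in the domain and in the centre. -/
def ArmF (Q : ℝ) (r R : ℤ) (g : ℝ) : Prop := ∀ (x : ℤ × ℤ) (D : Finset (ℤ × ℤ)),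
  Pr Q D eta0 {ω | ArmPx x r R ω} ≤ 1 - g

/-- K.6: expected number of the crossing clusters of a free domain. -/
def K_free : Prop := ∀ (Q : ℝ) (r R : ℤ) (g : ℝ), 1 ≤ Q → 0 ≤ r → r ≤ R → 0 < g → ArmF Q r R g →
  ∀ (x : ℤ × ℤ) (D : Finset (ℤ × ℤ)), Ex Q D eta0 (fun ω => (NP x r R ω : ℝ)) ≤ 1 / g

/-- The loops which visit only squares of the box of radius `R`. -/
def Lin (R : ℤ) (ω : Cfg) : Set (Finset Ed) := {ℓ | IsLoop ω ℓ ∧ vs ℓ ⊆ Bq 0 R}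

/-- K.7: expected number of the inner loops which cross an annulus. -/
def K_cnt : Prop := ∀ θ : ℝ, 0 ≤ θ → θ ≤ Real.pi / 3 → ∀ (r r' : ℤ) (g : ℝ), 1 ≤ r → r ≤ r' →
  0 < g → ArmF (2 * Real.cos θ) r r' g → ∀ (x : ℤ × ℤ) (R : ℤ) (M L : ℕ) [NeZero M] [NeZero L],
  1 ≤ R → Even M → Even L → 2 * R + 16 ≤ M → 2 * R + 16 ≤ L →
  ET θ M L (fun ω => (Set.ncard {ℓ | ℓ ∈ Lin R ω ∧ (∃ v ∈ vs ℓ, nm (v - x) ≤ r - 3) ∧
    ∃ v ∈ vs ℓ, r' + 3 ≤ nm (v - x)} : ℝ)) ≤ 2 / g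

/-- Diameter of a loop. -/
noncomputable def dm (ℓ : Finset Ed) : ℝ := ⨆ p : (vs ℓ) × (vs ℓ), (nm (p.1.1 - p.2.1) : ℝ)

open Classical in
/-- Weighted number of the inner loops which visit the box of radius `8 n`. -/
noncomputable def qs (n R : ℤ) (ω : Cfg) : ℝ :=
  ∑ᶠ ℓ ∈ {ℓ | ℓ ∈ Lin R ω ∧ ∃ v ∈ vs ℓ, nm v ≤ 8 * n}, min 1 (dm ℓ / n) ^ 4

/-- The a priori bounds at the scales `2 ^ j`. -/
structure Sc (Q : ℝ) (r : ℕ → ℤ) (g : ℕ → ℝ) : Prop where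
  one_le : ∀ j, 1 ≤ r j
  le : ∀ j, r j ≤ 2 ^ j
  pos : ∀ j, 0 < g j
  le_one : ∀ j, g j ≤ 1
  arm : ∀ j, ArmF Q (r j) (2 * r j) (g j)

/-- The bound for the weighted number of loops at scale `2 ^ J`. -/
noncomputable def cnt (r : ℕ → ℤ) (g : ℕ → ℝ) (J : ℕ) : ℝ :=
  ∑ j ∈ Finset.range (J + 1), (4 : ℝ) ^ j / 4 ^ J * (2 ^ j / (r j * g j))

/-- K.8: geometry (from K.7). -/
def K_cov : Prop := ∃ C : ℝ, 0 < C ∧ ∀ θ : ℝ, 0 ≤ θ → θ ≤ Real.pi / 3 →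
  ∀ (r : ℕ → ℤ) (g : ℕ → ℝ), Sc (2 * Real.cos θ) r g → ∀ (J : ℕ) (R : ℤ) (M L : ℕ)
  [NeZero M] [NeZero L], 1 ≤ R → Even M → Even L → 2 * R + 16 ≤ M → 2 * R + 16 ≤ L →
  ET θ M L (fun ω => qs (2 ^ J) R ω) ≤ C * cnt r g J

/-! ## Large clusters -/

/-- The sites of the annulus. -/
def an (m R : ℤ) : Set (ℤ × ℤ) := {w | m < nm w ∧ nm w ≤ R}

/-- Three primal components of the annulus cross it. -/
def Tri (m R : ℤ) (ω : Cfg) : Prop := ∃ s : Fin 3 → ℤ × ℤ,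
  (∀ i, Even ((s i).1 + (s i).2) ∧ nm (s i) = m + 1 ∧ ∃ t, nm t = R ∧ PConn (op ω) (an m R) (s i) t) ∧
  ∀ i j, i ≠ j → ¬ PConn (op ω) (an m R) (s i) (s j)

/-- Three dual components of the annulus cross it. -/
def TriD (m R : ℤ) (ω : Cfg) : Prop := ∃ s : Fin 3 → ℤ × ℤ,
  (∀ i, Odd ((s i).1 + (s i).2) ∧ nm (s i) = m + 1 ∧
    ∃ t, nm t = R ∧ PConn (op ω)ᶜ (an m R) (s i) t) ∧
  ∀ i j, i ≠ j → ¬ PConn (op ω)ᶜ (an m R) (s i) (s j)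

/-- K.9: Burton-Keane on the torus. -/
def K_bk : Prop := ∀ θ : ℝ, 0 ≤ θ → θ ≤ Real.pi / 3 → ∀ m : ℤ, 1 ≤ m → ∃ C : ℝ, ∀ R : ℤ,
  m + 3 ≤ R → ∀ (M L : ℕ) [NeZero M] [NeZero L], Even M → Even L → 4 * R ≤ M → 4 * R ≤ L →
  ET θ M L ({ω | Tri m R ω ∨ TriD m R ω}.indicator 1) ≤ C / R

/-- Admissible observables: total mass zero, all partial masses at most `b`, support in the box of
radius `m`; `a` is a flow with divergence `f`. -/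
structure Adm (m : ℤ) (b : ℝ) (E : Finset Ed) (a : Ed → ℝ) (f : ℤ × ℤ → ℝ) : Prop where
  off : ∀ e ∉ E, a e = 0
  div : fs a = f
  suppE : ∀ e ∈ E, nm (bs e) + 2 ≤ m
  supp : ∀ s, f s ≠ 0 → nm s ≤ m
  sum : ∑ᶠ s, f s = 0
  part : ∀ U : Set (ℤ × ℤ), |∑ᶠ s ∈ U, f s| ≤ b

/-- K.10 (deterministic): on the torus, without three crossing components, every orbit carries at
most `3 b` and the sum of the squares is dominated by the inner loops. -/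
def K_arc : Prop := ∀ (m R : ℤ) (b : ℝ) (E : Finset Ed) (a : Ed → ℝ) (f : ℤ × ℤ → ℝ), 1 ≤ m →
  m + 3 ≤ R → Adm m b E a f → ∀ (M L : ℕ) [NeZero M] [NeZero L] (hM : Even M) (hL : Even L),
  2 * R + 8 ≤ M → 2 * R + 8 ≤ L → ∀ ρ : ZMod M × ZMod L → Bool,
  ¬ Tri m R (unR ρ) → ¬ TriD m R (unR ρ) →
  (∀ O ∈ orbs ((torus M L hM hL).nxP ρ),
    |∑ e ∈ O, pa M L E a e * (torus M L hM hL).sg e| ≤ 3 * b) ∧
  ∑ O ∈ orbs ((torus M L hM hL).nxP ρ), (∑ e ∈ O, pa M L E a e * (torus M L hM hL).sg e) ^ 2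
    ≤ (∑ᶠ ℓ ∈ Lin R (unR ρ), G f ℓ ^ 2) + 9 * b ^ 2

open Classical in
/-- K.11: the `S`-inequality (from K.10, Cauchy-Schwarz and Baxter-Kelland-Wu). -/
def K_S : Prop := ∀ θ : ℝ, 0 ≤ θ → θ ≤ Real.pi / 3 → ∃ β C : ℝ, 0 < β ∧ 0 < C ∧
  ∀ (b : ℝ), 0 ≤ b → b ≤ β → ∀ (m R : ℤ), 1 ≤ m → m + 3 ≤ R →
  ∀ (E : Finset Ed) (a : Ed → ℝ) (f : ℤ × ℤ → ℝ), Adm m b E a f →
  ∀ (M L : ℕ) [NeZero M] [NeZero L], Even M → Even L → 2 * R + 8 ≤ M → 2 * R + 8 ≤ L →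
  ET θ M L (fun ω => if Tri m R ω ∨ TriD m R ω then 0 else
      Real.exp (-C * ∑ᶠ ℓ ∈ Lin R ω, G f ℓ ^ 2)) ≤
    Real.exp (C * b ^ 2) * (torU (2 * Real.cos (θ / 2)) M L
        (fun ω => Real.cos (∑ e ∈ E, a e * sgb (ω e))) +
      (1 / Real.cos θ) ^ E.card * ET θ M L ({ω | Tri m R ω ∨ TriD m R ω}.indicator 1))

/-- K.12: the Gaussian input (P152). -/
def K_G : Prop := ∀ θ : ℝ, 0 ≤ θ → θ ≤ Real.pi / 3 →
  ∃ (Cm c C : ℝ) (m : ℕ → ℤ × ℤ → ℝ), 0 < Cm ∧ 0 < c ∧ 0 < C ∧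
  (∀ᶠ n : ℕ in atTop, Chg Cm n (m n)) ∧
  ∀ b : ℝ, |b| ≤ 1 → ∀ k : ℕ, 4 ≤ k → ∀ᶠ n : ℕ in atTop, ∀ (E : Finset Ed) (a : Ed → ℝ),
    (∀ e ∉ E, a e = 0) → fs a = (fun s => b * (m n s - m (k * n) s)) →
    ∀ᶠ l : ℕ in atTop, ∀ᶠ M : ℕ in atTop,
      torU (2 * Real.cos (θ / 2)) (M + 1) (2 * (l + 1))
        (fun ω => Real.cos (∑ e ∈ E, a e * sgb (ω e))) ≤ C * (k : ℝ) ^ (-(c * b ^ 2))

/-- K.13: one block (from K.2 - K.12). -/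
def K_blk : Prop := ∀ θ : ℝ, 0 ≤ θ → θ ≤ Real.pi / 3 → ∀ C : ℝ, ∃ k J0 : ℕ, 8 ≤ k ∧
  ∀ (r : ℕ → ℤ) (g : ℕ → ℝ), Sc (2 * Real.cos θ) r g → ∀ J : ℕ, J0 ≤ J →
  cnt r g J ≤ C → cnt r g (J + k) ≤ C →
  Pr (2 * Real.cos θ) (Bq 0 (2 ^ (J + k))) eta0 {ω | ArmDx 0 (2 ^ (J + 2)) (2 ^ (J + k)) ω} ≤ 2 / 3

/-- K.14: conclusion (from K.13 and Tassion's argument for the wired measure). -/
def K_rsw : Prop := ∀ θ : ℝ, 0 ≤ θ → θ ≤ Real.pi / 3 → FK.RSW (2 * Real.cos θ)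

end Vale.Agent.P167.K8
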