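import Vale.Agent.P167.K8.Rsw
import Vale.Agent.P167.H638.KGfin

/-!
# P167, GQ8: Russo-Seymour-Welsh, unconditional
-/

namespace Vale.Agent.P167.K8

/-- **Russo-Seymour-Welsh** for the critical random-cluster model, `1 ≤ q ≤ 4`. -/
theorem k_rsw : K_rsw := k_rsw_of H638.k_G

end Vale.Agent.P167.K8
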