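import Vale.Agent.P167.FK.Sym
import Vale.Agent.P167.FKA.Dual

/-!
# P167, K8: the loops of the dual configuration
-/

namespace Vale.Agent.P167.K8

open Finset
open Vale.Agent.P167.FK (du shE shV syR_du)

theorem W_shE (ℓ : Finset Ed) (s : ℤ × ℤ) : W (ℓ.image shE) (FKA.sh s) = - W ℓ s := by
  unfold W
  rw [Finset.sum_image fun a _ b _ h => shE.injective h, ← Finset.sum_neg_distrib]
  refine Finset.sum_congr rfl fun e _ => ?_
  rcases e with ⟨x, y⟩ | ⟨x, y⟩
  · simp [shE]
  · by_cases hev : Even (x + y)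
    · have h1 : ¬ Even (x + 1 + y) := by
        intro h
        have : Even ((x + 1 + y) - (x + y)) := h.sub hev
        rw [show (x + 1 + y) - (x + y) = 1 by ring] at this
        exact absurd this (by decide)
      simp only [shE, Equiv.coe_fn_mk, FKA.sh, sg, hev, h1, if_true, if_false]
      by_cases h2 : y + 1 = s.2 ∧ s.1 ≤ x
      · rw [if_pos h2, if_pos ⟨h2.1, by linarith [h2.2]⟩]
        norm_num
      · rw [if_neg h2, if_neg fun h => h2 ⟨h.1, by linarith [h.2]⟩]
        norm_num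
    · have h1 : Even (x + 1 + y) := by
        rw [Int.not_even_iff_odd] at hev
        have := hev.add_odd (odd_one)
        rwa [show x + y + 1 = x + 1 + y by ring] at this
      simp only [shE, Equiv.coe_fn_mk, FKA.sh, sg, hev, h1, if_true, if_false]
      by_cases h2 : y + 1 = s.2 ∧ s.1 ≤ x
      · rw [if_pos h2, if_pos ⟨h2.1, by linarith [h2.2]⟩]
      · rw [if_neg h2, if_neg fun h => h2 ⟨h.1, by linarith [h.2]⟩]
        norm_num

theorem du_loop {ω : Cfg} {ℓ : Finset Ed} (h : IsLoop ω ℓ) : ∃ ℓ' : Finset Ed,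
    IsLoop (du ω) ℓ' ∧ vs ℓ' = (vs ℓ).image FKA.sh ∧ ∀ s, W ℓ' (FKA.sh s) = - W ℓ s := by
  obtain ⟨h1, h2⟩ := (syR_du ω).loop h
  exact ⟨_, h1, h2, fun s => W_shE ℓ s⟩

end Vale.Agent.P167.K8
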