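import Vale.Agent.P167.K8.Arc2

/-!
# P167, GQ8: K.10
-/

namespace Vale.Agent.P167.K8

open Finset Vale.Agent.P167
open Vale.Agent.P167.FK hiding pa
open Vale.Agent.P152 (Edge Ori)
open Vale.Agent.P167.A (Grid plane torus red redE nx_red plane_hd)
open Vale.Agent.P167.H685 (fs bs dv orbs unR pa bx mem_bx redE_inj orb_image sg_red nx_iter_red
  mem_orbs bs_hdv)

variable {m R : ℤ} {b : ℝ} {E : Finset Ed} {a : Ed → ℝ} {f : ℤ × ℤ → ℝ}
variable {M L : ℕ} [NeZero M] [NeZero L] (hM : Even M) (hL : Even L)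
variable (ρ : ZMod M × ZMod L → Bool)

/-- The torus orbit below a plane edge. -/
noncomputable def ko (e : Ed) : Finset (Edge (ZMod M × ZMod L)) :=
  H685.orb ((torus M L hM hL).nxP ρ) (redE M L e)

theorem ko_nx (e : Ed) : ko hM hL ρ (nx (unR ρ) e) = ko hM hL ρ e := by
  unfold ko
  rw [H685.orb_eq_iff]
  refine ⟨-1, ?_⟩
  rw [zpow_neg, zpow_one, Equiv.Perm.inv_eq_iff_eq]
  have := nx_red hM hL ρ e
  exact this.symm

theorem ko_orb {e e' : Ed} (h : e' ∈ orb (unR ρ) e) : ko hM hL ρ e' = ko hM hL ρ e :=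
  orb_induct (p := fun x => ko hM hL ρ x = ko hM hL ρ e) (fun x _ => by rw [ko_nx]) rfl e' h

theorem mem_ko (e : Ed) {O : Finset (Edge (ZMod M × ZMod L))}
    (hO : O ∈ orbs ((torus M L hM hL).nxP ρ)) : redE M L e ∈ O ↔ ko hM hL ρ e = O := by
  constructor
  · intro h
    exact (H685.eq_orb_of_mem hO h).symm
  · rintro rfl
    exact H685.self_mem_orb _

theorem ko_mem (e : Ed) : ko hM hL ρ e ∈ orbs ((torus M L hM hL).nxP ρ) := H685.orb_mem_orbs _

/-- The flux through a torus orbit in terms of the edges of the plane. -/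
theorem flux_torus (E : Finset Ed) (a : Ed → ℝ) {O : Finset (Edge (ZMod M × ZMod L))}
    (hO : O ∈ orbs ((torus M L hM hL).nxP ρ)) :
    ∑ x ∈ O, pa M L E a x * (torus M L hM hL).sg x =
      ∑ e ∈ E with ko hM hL ρ e = O, a e * sg e := by
  classical
  have h1 : ∀ x, pa M L E a x * ((torus M L hM hL).sg x : ℝ) =
      ∑ e ∈ E, if redE M L e = x then a e * sg e else 0 := by
    intro x
    unfold pa
    rw [Finset.sum_mul, Finset.sum_filter]
    refine Finset.sum_congr rfl fun e _ => ?_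
    split_ifs with h
    · rw [← h, sg_red]
    · rfl
  simp only [h1]
  rw [Finset.sum_comm, Finset.sum_filter]
  refine Finset.sum_congr rfl fun e _ => ?_
  rw [Finset.sum_ite_eq]
  by_cases h : redE M L e ∈ O
  · rw [if_pos h, if_pos ((mem_ko hM hL ρ e hO).mp h)]
  · rw [if_neg h, if_neg (fun h' => h ((mem_ko hM hL ρ e hO).mpr h'))]

variable {ρ}

theorem nm_near (h : Adm m b E a f) {e : Ed} (he : e ∈ E) : nm (ls e) ≤ m ∨ nm (rs e) ≤ m := by
  have := h.suppE e he
  left
  rcases e with ⟨x, y⟩ | ⟨x, y⟩ <;> simp only [bs, nm, ls, abs_eq_max_neg] at this ⊢ <;>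
    split_ifs <;> simp only <;> omega

/-- Inner loops: the torus orbit determines the interface. -/
theorem same_of_inB (h : Adm m b E a f) (hmR : m + 3 ≤ R) (h1 : 2 * R + 8 ≤ M)
    (h2 : 2 * R + 8 ≤ L) {e e' : Ed} (he' : e' ∈ E) (hin : InB (unR ρ) R e)
    (hk : ko hM hL ρ e' = ko hM hL ρ e) : e' ∈ orb (unR ρ) e := by
  classical
  obtain ⟨ℓ, hℓ, hv, heℓ⟩ := hin
  rw [orb_of_loop hℓ heℓ]
  have h3 : redE M L e' ∈ ℓ.image (redE M L) := by
    rw [← orb_image hM hL hℓ heℓ]
    exact (mem_ko hM hL ρ e' (ko_mem hM hL ρ e)).mpr hk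
  obtain ⟨e1, h4, h5⟩ := Finset.mem_image.mp h3
  have h6 : e1 = e' := by
    have hb := h.suppE e' he'
    have hc := hv (Finset.mem_image_of_mem hdv h4)
    have hd := bs_hdv e1
    simp only [Bq, Finset.mem_product, Finset.mem_Ico, Prod.fst_zero, Prod.snd_zero] at hc
    simp only [nm, abs_eq_max_neg] at hb hd
    obtain ⟨K, hK⟩ : ∃ K : ℕ, (K : ℤ) = R + 1 := ⟨(R + 1).toNat, by omega⟩
    refine redE_inj (K := K) (by omega) (by omega) ?_ ?_ h5
    · rw [mem_bx]
      omega
    · rw [mem_bx]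
      omega
  rw [← h6]
  exact h4

open Classical in
/-- The giant interfaces. -/
noncomputable def gi (ω : Cfg) (R : ℤ) (E : Finset Ed) : Finset (Set Ed) :=
  (E.filter fun e => ¬ InB ω R e).image (orb ω)

theorem card_gi (h : Adm m b E a f) (hmR : m + 3 ≤ R) {ω : Cfg} (hT : ¬ Tri m R ω)
    (hD : ¬ TriD m R ω) : (gi ω R E).card ≤ 3 := by
  classical
  by_contra hcon
  push Not at hcon
  obtain ⟨S, hS, hS4⟩ := Finset.exists_subset_card_eq (show 4 ≤ (gi ω R E).card by omega)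
  obtain ⟨φ⟩ : Nonempty (Fin 4 ≃ S) := ⟨(S.equivFinOfCardEq hS4).symm⟩
  have hex : ∀ i : Fin 4, ∃ e, Crs ω m R e ∧ orb ω e = (φ i : Set Ed) := by
    intro i
    obtain ⟨e, he, heq⟩ := Finset.mem_image.mp (hS (φ i).2)
    obtain ⟨he1, he2⟩ := Finset.mem_filter.mp he
    obtain ⟨e'', h3, h4⟩ := leaves (m := m) (R := R) (by omega) (nm_near h he1) he2
    exact ⟨e'', h4, by rw [orb_eq h3, heq]⟩
  choose e he1 he2 using hex
  refine no_four hT hD e he1 fun i j hij hmem => hij ?_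
  have h5 := orb_eq hmem
  rw [he2, he2] at h5
  exact φ.injective (Subtype.ext h5)

/-- An outer torus orbit carries at most `b` for every giant interface above it. -/
theorem flux_outer (h : Adm m b E a f) {O : Finset (Edge (ZMod M × ZMod L))}
    (hout : ∀ e ∈ E, ko hM hL ρ e = O → ¬ InB (unR ρ) R e) :
    ∃ S : Finset (Set Ed), S ⊆ gi (unR ρ) R E ∧
      (∀ U ∈ S, ∃ e ∈ E, ko hM hL ρ e = O ∧ orb (unR ρ) e = U) ∧
      |∑ e ∈ E with ko hM hL ρ e = O, a e * sg e| ≤ b * S.card := by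
  classical
  set E' := E.filter (fun e => ko hM hL ρ e = O) with hE'
  refine ⟨E'.image (orb (unR ρ)), ?_, ?_, ?_⟩
  · intro U hU
    obtain ⟨e, he, rfl⟩ := Finset.mem_image.mp hU
    obtain ⟨h1, h2⟩ := Finset.mem_filter.mp he
    exact Finset.mem_image_of_mem _ (Finset.mem_filter.mpr ⟨h1, hout e h1 h2⟩)
  · intro U hU
    obtain ⟨e, he, rfl⟩ := Finset.mem_image.mp hU
    obtain ⟨h1, h2⟩ := Finset.mem_filter.mp he
    exact ⟨e, h1, h2, rfl⟩
  · have h1 : ∑ e ∈ E', a e * (sg e : ℝ) =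
        ∑ U ∈ E'.image (orb (unR ρ)), ∑ e ∈ E' with orb (unR ρ) e = U, a e * (sg e : ℝ) :=
      (Finset.sum_fiberwise_of_maps_to (fun e he => Finset.mem_image_of_mem _ he) _).symm
    have h2 : ∀ U ∈ E'.image (orb (unR ρ)),
        |∑ e ∈ E' with orb (unR ρ) e = U, a e * (sg e : ℝ)| ≤ b := by
      intro U hU
      obtain ⟨e, he, rfl⟩ := Finset.mem_image.mp hU
      obtain ⟨-, h3⟩ := Finset.mem_filter.mp he
      have h4 : E'.filter (fun e' => orb (unR ρ) e' = orb (unR ρ) e) =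
          E.filter (fun e' => e' ∈ orb (unR ρ) e) := by
        ext e'
        simp only [hE', Finset.mem_filter]
        constructor
        · rintro ⟨⟨h5, -⟩, h6⟩
          exact ⟨h5, by rw [← h6]; exact mem_orb_self _ _⟩
        · rintro ⟨h5, h6⟩
          exact ⟨⟨h5, by rw [ko_orb hM hL ρ h6, h3]⟩, orb_eq h6⟩
      rw [h4]
      exact flux_le h e
    rw [h1]
    refine (Finset.abs_sum_le_sum_abs _ _).trans ((Finset.sum_le_sum h2).trans ?_)
    rw [Finset.sum_const, nsmul_eq_mul, mul_comm]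

theorem lin_finite (R : ℤ) (ω : Cfg) : (Lin R ω).Finite := by
  classical
  refine Set.Finite.subset
    (((Bq 0 R).image ia ∪ (Bq 0 R).image ib : Finset Ed).powerset.finite_toSet) ?_
  rintro ℓ ⟨-, h⟩
  rw [Finset.mem_coe, Finset.mem_powerset]
  intro e he
  have hv := h (Finset.mem_image_of_mem hdv he)
  rw [Finset.mem_union, Finset.mem_image, Finset.mem_image]
  rcases eq_of_hdv (rfl : hdv e = hdv e) with h1 | h1
  · exact Or.inl ⟨_, hv, h1.symm⟩
  · exact Or.inr ⟨_, hv, h1.symm⟩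

/-- K.10 -/
theorem k_arc : K_arc := by
  classical
  intro m R b E a f hm hmR h M L _ _ hM hL h1 h2 ρ hT hD
  set ω := unR ρ with hω
  have hb := adm_nonneg h
  have hcard := card_gi h hmR hT hD
  set g : Finset (Edge (ZMod M × ZMod L)) → ℝ := fun O =>
    ∑ e ∈ E with ko hM hL ρ e = O, a e * (sg e : ℝ) with hg
  have hgO : ∀ O ∈ orbs ((torus M L hM hL).nxP ρ),
      ∑ e ∈ O, pa M L E a e * ((torus M L hM hL).sg e : ℝ) = g O := fun O hO =>
    flux_torus hM hL ρ E a hO
  -- inner orbits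
  set Inn' : Finset (Edge (ZMod M × ZMod L)) → Prop := fun O =>
    ∃ e ∈ E, ko hM hL ρ e = O ∧ InB ω R e with hInn
  have hin : ∀ O, Inn' O → ∃ ℓ ∈ Lin R ω, |g O| ≤ b ∧ g O ^ 2 = G f ℓ ^ 2 ∧
      ℓ.image (redE M L) = O := by
    rintro O ⟨e, he, hk, hInB⟩
    have h3 : g O = flux E a (orb ω e) := by
      simp only [hg, flux]
      refine Finset.sum_congr ?_ fun _ _ => rfl
      ext e'
      simp only [Finset.mem_filter]
      refine and_congr_right fun he' => ⟨fun h4 => ?_, fun h4 => ?_⟩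
      · exact same_of_inB hM hL h hmR h1 h2 he' hInB (by rw [h4, hk])
      · rw [ko_orb hM hL ρ h4, hk]
    obtain ⟨ℓ, hℓ, hv, heℓ⟩ := hInB
    refine ⟨ℓ, ⟨hℓ, hv⟩, ?_, ?_, ?_⟩
    · rw [h3]; exact flux_le h e
    · rw [h3]; exact flux_loop h hℓ heℓ
    · rw [← orb_image hM hL hℓ heℓ]; exact hk
  -- outer orbits
  have hout : ∀ O, ¬ Inn' O → ∃ S : Finset (Set Ed), S ⊆ gi ω R E ∧
      (∀ U ∈ S, ∃ e ∈ E, ko hM hL ρ e = O ∧ orb ω e = U) ∧ |g O| ≤ b * S.card := by
    intro O hO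
    refine flux_outer hM hL h fun e he hk hB => hO ⟨e, he, hk, hB⟩
  constructor
  · intro O hO
    rw [hgO O hO]
    by_cases hI : Inn' O
    · obtain ⟨ℓ, -, h3, -, -⟩ := hin O hI
      linarith
    · obtain ⟨S, h3, -, h4⟩ := hout O hI
      have h5 : (S.card : ℝ) ≤ 3 := by exact_mod_cast (Finset.card_le_card h3).trans hcard
      nlinarith
  · rw [Finset.sum_congr rfl fun O hO => by rw [hgO O hO]]
    rw [← Finset.sum_filter_add_sum_filter_not _ Inn']
    refine add_le_add ?_ ?_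
    · -- inner orbits
      have hex : ∀ O : Finset (Edge (ZMod M × ZMod L)), ∃ ℓ : Finset Ed, Inn' O →
          ℓ ∈ Lin R ω ∧ g O ^ 2 = G f ℓ ^ 2 ∧ ℓ.image (redE M L) = O := by
        intro O
        by_cases hI : Inn' O
        · obtain ⟨ℓ, h3, -, h4, h5⟩ := hin O hI
          exact ⟨ℓ, fun _ => ⟨h3, h4, h5⟩⟩
        · exact ⟨∅, fun h' => absurd h' hI⟩
      choose ℓ hℓ using hex
      have hfin := lin_finite R ω
      rw [finsum_mem_eq_finite_toFinset_sum _ hfin]
      calc ∑ O ∈ (orbs ((torus M L hM hL).nxP ρ)).filter Inn', g O ^ 2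
          = ∑ O ∈ (orbs ((torus M L hM hL).nxP ρ)).filter Inn', G f (ℓ O) ^ 2 := by
            refine Finset.sum_congr rfl fun O hO => ?_
            exact (hℓ O (Finset.mem_filter.mp hO).2).2.1
        _ = ∑ l ∈ ((orbs ((torus M L hM hL).nxP ρ)).filter Inn').image ℓ, G f l ^ 2 := by
            rw [Finset.sum_image]
            intro O hO O' hO' heq
            rw [Finset.mem_coe, Finset.mem_filter] at hO hO'
            rw [← (hℓ O hO.2).2.2, ← (hℓ O' hO'.2).2.2, heq]
        _ ≤ _ := by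
            refine Finset.sum_le_sum_of_subset_of_nonneg ?_ fun _ _ _ => sq_nonneg _
            intro l hl
            obtain ⟨O, hO, rfl⟩ := Finset.mem_image.mp hl
            rw [Set.Finite.mem_toFinset]
            exact (hℓ O (Finset.mem_filter.mp hO).2).1
    · -- outer orbits
      have hex : ∀ O : Finset (Edge (ZMod M × ZMod L)), ∃ S : Finset (Set Ed), ¬ Inn' O →
          S ⊆ gi ω R E ∧ (∀ U ∈ S, ∃ e ∈ E, ko hM hL ρ e = O ∧ orb ω e = U) ∧
          |g O| ≤ b * S.card := by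
        intro O
        by_cases hI : Inn' O
        · exact ⟨∅, fun h' => absurd hI h'⟩
        · obtain ⟨S, h3⟩ := hout O hI
          exact ⟨S, fun _ => h3⟩
      choose S hS using hex
      set Q := (orbs ((torus M L hM hL).nxP ρ)).filter (fun O => ¬ Inn' O) with hQ
      have h3 : ∑ O ∈ Q, |g O| ≤ 3 * b := by
        have hdis : ∀ O ∈ Q, ∀ O' ∈ Q, O ≠ O' → Disjoint (S O) (S O') := by
          intro O hO O' hO' hne
          rw [Finset.disjoint_left]
          intro U hU hU'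
          obtain ⟨e, -, h4, h5⟩ := (hS O (Finset.mem_filter.mp hO).2).2.1 U hU
          obtain ⟨e', -, h4', h5'⟩ := (hS O' (Finset.mem_filter.mp hO').2).2.1 U hU'
          apply hne
          rw [← h4, ← h4']
          refine ko_orb hM hL ρ ?_
          rw [h5', ← h5]
          exact mem_orb_self _ _
        calc ∑ O ∈ Q, |g O| ≤ ∑ O ∈ Q, b * ((S O).card : ℝ) :=
              Finset.sum_le_sum fun O hO => (hS O (Finset.mem_filter.mp hO).2).2.2
          _ = b * ((Q.biUnion S).card : ℝ) := by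
              rw [← Finset.mul_sum, Finset.card_biUnion hdis]
              push_cast
              rfl
          _ ≤ b * 3 := by
              refine mul_le_mul_of_nonneg_left ?_ hb
              have : (Q.biUnion S).card ≤ 3 :=
                (Finset.card_le_card (Finset.biUnion_subset.mpr fun O hO =>
                  (hS O (Finset.mem_filter.mp hO).2).1)).trans hcard
              exact_mod_cast this
          _ = 3 * b := by ring
      calc ∑ O ∈ Q, g O ^ 2 = ∑ O ∈ Q, |g O| ^ 2 :=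
            Finset.sum_congr rfl fun O _ => (sq_abs _).symm
        _ ≤ (∑ O ∈ Q, |g O|) ^ 2 :=
            Finset.sum_sq_le_sq_sum_of_nonneg fun O _ => abs_nonneg _
        _ ≤ (3 * b) ^ 2 := by
            refine pow_le_pow_left₀ (Finset.sum_nonneg fun O _ => abs_nonneg _) h3 2
        _ = 9 * b ^ 2 := by ring

end Vale.Agent.P167.K8
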