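import Vale.Agent.P167.Top.Flow
import Vale.Agent.P167.FK.Flip
import Vale.Agent.P167.H166.Clu

/-!
# P167, GQ8: potentials of the (possibly infinite) interfaces in the plane
-/

namespace Vale.Agent.P167.K8

open Finset Vale.Agent.P167 Vale.Agent.P167.FK
open Vale.Agent.P145.FB (PStep PConn)

/-- `O` is invariant under the interface step. -/
def Inv (ω : Cfg) (O : Set Ed) : Prop := ∀ e, nx ω e ∈ O ↔ e ∈ O

open Classical in
/-- `w` jumps by one across the edges of `O` and only there. -/
def IsPot (O : Set Ed) (w : ℤ × ℤ → ℤ) : Prop := ∀ e, w (ls e) = w (rs e) + if e ∈ O then 1 else 0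

open Classical in
/-- The signed indicator of `O`. -/
noncomputable def Jm (O : Set Ed) (e : Ed) : ℤ := if e ∈ O then sg e else 0

/-! ### Existence -/

theorem exists_prim (H : ℤ → ℤ) : ∃ S : ℤ → ℤ, S 0 = 0 ∧ ∀ n, S (n + 1) - S n = H n := by
  refine ⟨fun n => ∑ i ∈ range n.toNat, H i - ∑ i ∈ range (-n).toNat, H (-(i : ℤ) - 1), by simp,
    fun n => ?_⟩
  obtain ⟨k, rfl | rfl⟩ := n.eq_nat_or_neg
  · have h1 : ((k : ℤ) + 1).toNat = k + 1 := by omega
    have h2 : (-((k : ℤ) + 1)).toNat = 0 := by omega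
    have h3 : ((k : ℤ)).toNat = k := by omega
    have h4 : (-(k : ℤ)).toNat = 0 := by omega
    simp only [h1, h2, h3, h4, Finset.sum_range_succ, Finset.range_zero, Finset.sum_empty]
    ring
  · rcases k with _ | k
    · simp
    · have h1 : (-((k + 1 : ℕ) : ℤ) + 1).toNat = 0 := by omega
      have h2 : (-(-((k + 1 : ℕ) : ℤ) + 1)).toNat = k := by omega
      have h3 : (-((k + 1 : ℕ) : ℤ)).toNat = 0 := by omega
      have h4 : (- -((k + 1 : ℕ) : ℤ)).toNat = k + 1 := by omega
      simp only [h1, h2, h3, h4, Finset.sum_range_succ, Finset.range_zero, Finset.sum_empty]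
      have h5 : -(k : ℤ) - 1 = -((k + 1 : ℕ) : ℤ) := by push_cast; ring
      rw [h5]
      ring

theorem const_of_step {D : ℤ → ℤ} (h : ∀ n, D (n + 1) = D n) (n : ℤ) : D n = D 0 := by
  induction n using Int.induction_on with
  | zero => rfl
  | succ n ih => rw [h, ih]
  | pred n ih => rw [← ih, ← h (-(n : ℤ) - 1), sub_add_cancel]

/-- Conservation at a square. -/
theorem Jm_cons {ω : Cfg} {O : Set Ed} (hO : Inv ω O) (x y : ℤ) :
    Jm O (Sum.inl (x, y)) + Jm O (Sum.inr (x, y)) =
      Jm O (Sum.inr (x, y - 1)) + Jm O (Sum.inl (x - 1, y)) := by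
  by_cases h : Even (x + y)
  · have h1 := hO (Sum.inr (x, y))
    have h2 := hO (Sum.inr (x, y - 1))
    simp only [nx, h, if_true, ev4, not_true_eq_false, if_false, sub_add_cancel] at h1 h2
    simp only [Jm, sg, h, if_true, ev3, ev4, not_true_eq_false, if_false]
    cases hω : ω (x, y) <;> simp only [hω, if_true, if_false, Bool.false_eq_true] at h1 h2 <;>
      split_ifs <;> first | rfl | (exfalso; tauto)
  · have h1 := hO (Sum.inl (x, y))
    have h2 := hO (Sum.inl (x - 1, y))
    simp only [nx, h, if_false, ev3, not_false_eq_true, if_true, sub_add_cancel] at h1 h2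
    simp only [Jm, sg, h, if_false, ev3, ev4, not_false_eq_true, if_true]
    cases hω : ω (x, y) <;> simp only [hω, if_true, if_false, Bool.false_eq_true] at h1 h2 <;>
      split_ifs <;> first | rfl | (exfalso; tauto)

/-- Every invariant set of edges has a potential. -/
theorem exists_pot {ω : Cfg} {O : Set Ed} (hO : Inv ω O) : ∃ w : ℤ × ℤ → ℤ,
    (∀ x y, w (x + 1, y + 1) - w (x + 1, y) = Jm O (Sum.inl (x, y))) ∧
    ∀ x y, w (x, y + 1) - w (x + 1, y + 1) = Jm O (Sum.inr (x, y)) := by
  obtain ⟨A, hA0, hA⟩ := exists_prim fun x => -Jm O (Sum.inr (x, -1))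
  choose V hV0 hV using fun x : ℤ => exists_prim fun y => Jm O (Sum.inl (x - 1, y))
  have hor : ∀ x y, A (x + 1) + V (x + 1) y - (A x + V x y) + Jm O (Sum.inr (x, y - 1)) = 0 := by
    intro x y
    have hD : ∀ n : ℤ, (A (x + 1) + V (x + 1) (n + 1) - (A x + V x (n + 1)) +
        Jm O (Sum.inr (x, n + 1 - 1))) = (A (x + 1) + V (x + 1) n - (A x + V x n) +
        Jm O (Sum.inr (x, n - 1))) := by
      intro n
      have h1 := hV x n
      have h2 := hV (x + 1) n
      have h3 := Jm_cons hO x n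
      simp only [add_sub_cancel_right] at h1 h2 ⊢
      linarith
    have h1 := const_of_step (D := fun y => A (x + 1) + V (x + 1) y - (A x + V x y) +
      Jm O (Sum.inr (x, y - 1))) hD y
    rw [h1, hV0, hV0]
    have h2 := hA x
    simp only [zero_sub] at h2 ⊢
    linarith
  refine ⟨fun s => A s.1 + V s.1 s.2, fun x y => ?_, fun x y => ?_⟩
  · have h1 := hV (x + 1) y
    simp only [add_sub_cancel_right] at h1 ⊢
    linarith
  · have h1 := hor x (y + 1)
    simp only [add_sub_cancel_right] at h1 ⊢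
    linarith

theorem isPot_of {O : Set Ed} {w : ℤ × ℤ → ℤ}
    (h1 : ∀ x y, w (x + 1, y + 1) - w (x + 1, y) = Jm O (Sum.inl (x, y)))
    (h2 : ∀ x y, w (x, y + 1) - w (x + 1, y + 1) = Jm O (Sum.inr (x, y))) : IsPot O w := by
  rintro (⟨x, y⟩ | ⟨x, y⟩)
  · have h3 := h1 x y
    simp only [ls, rs]
    by_cases he : Even (x + y)
    · simp only [Jm, he, if_true, sg] at h3 ⊢
      linarith
    · simp only [Jm, he, if_false, sg] at h3 ⊢
      split_ifs at h3 ⊢ <;> linarith
  · have h3 := h2 x y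
    simp only [ls, rs]
    by_cases he : Even (x + y)
    · simp only [Jm, he, if_true, sg] at h3 ⊢
      split_ifs at h3 ⊢ <;> linarith
    · simp only [Jm, he, if_false, sg] at h3 ⊢
      linarith

/-! ### Constancy along open steps -/

variable {ω : Cfg} {O : Set Ed} {w : ℤ × ℤ → ℤ}

theorem pot_step_aux (hO : Inv ω O) (h : IsPot O w) (e : Ed) :
    (ω (hdv e) = true → w (ls (nx ω e)) = w (ls e)) ∧
    (ω (hdv e) = false → w (rs (nx ω e)) = w (rs e)) := by
  classical
  have h1 := h e
  have h2 := h (nx ω e)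
  have h3 : w (ls (nx ω e)) - w (rs (nx ω e)) = w (ls e) - w (rs e) := by
    by_cases he : e ∈ O
    · rw [if_pos he] at h1
      rw [if_pos ((hO e).mpr he)] at h2
      omega
    · rw [if_neg he] at h1
      rw [if_neg (fun hh => he ((hO e).mp hh))] at h2
      omega
  constructor
  · intro h0
    rw [rs_nx h0] at h3
    omega
  · intro h0
    rw [ls_nx h0] at h3
    omega

theorem pot_square (hO : Inv ω O) (h : IsPot O w) (x y : ℤ) :
    ((Even (x + y) ∧ ω (x, y) = true) ∨ (¬ Even (x + y) ∧ ω (x, y) = false) →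
      w (x, y) = w (x + 1, y + 1)) ∧
    ((¬ Even (x + y) ∧ ω (x, y) = true) ∨ (Even (x + y) ∧ ω (x, y) = false) →
      w (x + 1, y) = w (x, y + 1)) := by
  by_cases hev : Even (x + y)
  · have h1 := pot_step_aux hO h (Sum.inr (x, y))
    constructor
    · rintro (⟨-, h0⟩ | ⟨h0, -⟩)
      · have h2 := h1.1 (by simpa [hdv, hev] using h0)
        simpa [nx, ls, hev, h0, ev3] using h2
      · exact absurd hev h0
    · rintro (⟨h0, -⟩ | ⟨-, h0⟩)
      · exact absurd hev h0
      · have h2 := h1.2 (by simpa [hdv, hev] using h0)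
        simpa [nx, rs, hev, h0, ev3] using h2
  · have h1 := pot_step_aux hO h (Sum.inl (x, y))
    constructor
    · rintro (⟨h0, -⟩ | ⟨-, h0⟩)
      · exact absurd h0 hev
      · have h2 := h1.2 (by simpa [hdv, hev] using h0)
        simpa [nx, rs, hev, h0, ev4] using h2
    · rintro (⟨-, h0⟩ | ⟨h0, -⟩)
      · have h2 := h1.1 (by simpa [hdv, hev] using h0)
        have h3 : w (x, y + 1) = w (x + 1, y) := by
          simpa [nx, ls, hev, h0, ev4] using h2
        exact h3.symm
      · exact absurd h0 hev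

/-- Potentials are constant along primal and dual open steps. -/
theorem pot_step (hO : Inv ω O) (h : IsPot O w) {s t : ℤ × ℤ}
    (hst : Even (s.1 + s.2) ∧ PStep (op ω) s t ∨ Odd (s.1 + s.2) ∧ PStep (op ω)ᶜ s t) :
    w s = w t := by
  obtain ⟨x, y⟩ := s
  obtain ⟨x', y'⟩ := t
  have hpar : ∀ a b : ℤ, Odd (a + b) ↔ ¬ Even (a + b) := fun a b => Int.not_even_iff_odd.symm
  simp only [PStep, hpar] at hst
  have hmem : ∀ q : ℤ × ℤ, (q ∈ op ω ↔ ω q = true) ∧ (q ∈ (op ω)ᶜ ↔ ω q = false) := by
    intro q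
    constructor
    · rfl
    · simp [op]
  simp only [(hmem _).1, (hmem _).2] at hst
  have e1 : ∀ a : ℤ, min a (a + 1) = a := fun a => by omega
  have e2 : ∀ a : ℤ, min a (a - 1) = a - 1 := fun a => by omega
  have p1 : ∀ a b : ℤ, Even (a - 1 + (b - 1)) ↔ Even (a + b) := fun a b => by
    rw [Int.even_iff, Int.even_iff]; omega
  rcases hst with ⟨hev, h1 | h1, h2 | h2, h0⟩ | ⟨hev, h1 | h1, h2 | h2, h0⟩ <;> subst h1 <;>
    subst h2 <;> simp only [e1, e2] at h0
  · exact (pot_square hO h x y).1 (Or.inl ⟨hev, h0⟩)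
  · have := (pot_square hO h x (y - 1)).2 (Or.inl ⟨by rw [ev4]; simpa using hev, h0⟩)
    simpa using this.symm
  · have := (pot_square hO h (x - 1) y).2 (Or.inl ⟨by rw [ev3]; simpa using hev, h0⟩)
    simpa using this
  · have := (pot_square hO h (x - 1) (y - 1)).1 (Or.inl ⟨by rw [p1]; exact hev, h0⟩)
    simpa using this.symm
  · exact (pot_square hO h x y).1 (Or.inr ⟨hev, h0⟩)
  · have := (pot_square hO h x (y - 1)).2 (Or.inr ⟨by rw [ev4]; exact hev, h0⟩)
    simpa using this.symm
  · have := (pot_square hO h (x - 1) y).2 (Or.inr ⟨by rw [ev3]; exact hev, h0⟩)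
    simpa using this
  · have := (pot_square hO h (x - 1) (y - 1)).1 (Or.inr ⟨by rw [p1]; exact hev, h0⟩)
    simpa using this.symm

/-! ### Orbits -/

/-- The interface through the edge `e`. -/
def orb (ω : Cfg) (e : Ed) : Set Ed :=
  {e' | ∃ n : ℕ, (nx ω)^[n] e = e' ∨ (nx ω)^[n] e' = e}

theorem mem_orb_self (ω : Cfg) (e : Ed) : e ∈ orb ω e := ⟨0, Or.inl rfl⟩

theorem inv_orb (ω : Cfg) (e : Ed) : Inv ω (orb ω e) := by
  intro e'
  constructor
  · rintro ⟨n, h | h⟩
    · rcases n with _ | n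
      · exact ⟨1, Or.inr h.symm⟩
      · rw [Function.iterate_succ_apply'] at h
        exact ⟨n, Or.inl ((s_nx ω).1 h)⟩
    · exact ⟨n + 1, Or.inr (by rw [Function.iterate_succ_apply]; exact h)⟩
  · rintro ⟨n, h | h⟩
    · exact ⟨n + 1, Or.inl (by rw [Function.iterate_succ_apply', h])⟩
    · rcases n with _ | n
      · exact ⟨1, Or.inl (by rw [show e' = e from h]; rfl)⟩
      · rw [Function.iterate_succ_apply] at h
        exact ⟨n, Or.inr h⟩

/-- A property which is invariant under the interface step in both directions is constant on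
interfaces. -/
theorem orb_induct {e : Ed} {p : Ed → Prop} (hp : ∀ e' ∈ orb ω e, p (nx ω e') ↔ p e') (h : p e) :
    ∀ e' ∈ orb ω e, p e' := by
  have h1 : ∀ n : ℕ, ∀ e' ∈ orb ω e, (p ((nx ω)^[n] e') ↔ p e') := by
    intro n
    induction n with
    | zero => intro e' _; rfl
    | succ n ih =>
      intro e' he'
      rw [Function.iterate_succ_apply, ih _ ((inv_orb ω e e').mpr he'), hp e' he']
  intro e' he'
  obtain ⟨n, hn | hn⟩ := he'
  · rw [← hn, h1 n e (mem_orb_self ω e)]
    exact h
  · rw [← h1 n e' ⟨n, Or.inr hn⟩, hn]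
    exact h

theorem orb_subset_of_inv {e : Ed} (hO : Inv ω O) (he : e ∈ O) : orb ω e ⊆ O :=
  orb_induct (p := fun e' => e' ∈ O) (fun e' _ => hO e') he

theorem mem_orb_symm {e e' : Ed} (h : e' ∈ orb ω e) : e ∈ orb ω e' := by
  obtain ⟨n, h | h⟩ := h
  · exact ⟨n, Or.inr h⟩
  · exact ⟨n, Or.inl h⟩

theorem orb_eq {e e' : Ed} (h : e' ∈ orb ω e) : orb ω e' = orb ω e :=
  Set.Subset.antisymm (orb_subset_of_inv (inv_orb ω e) h)
    (orb_subset_of_inv (inv_orb ω e') (mem_orb_symm h))

/-- The potential is constant on the left side of an interface. -/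
theorem pot_ls_const {e e' : Ed} (h : IsPot (orb ω e) w) (he' : e' ∈ orb ω e) :
    w (ls e') = w (ls e) := by
  refine orb_induct (p := fun x => w (ls x) = w (ls e)) (fun x hx => ?_) rfl e' he'
  have h3 : w (ls (nx ω x)) = w (ls x) := by
    cases h0 : ω (hdv x) with
    | false => rw [ls_nx h0]
    | true =>
      have h1 := h x
      have h2 := h (nx ω x)
      rw [if_pos hx] at h1
      rw [if_pos ((inv_orb ω e x).mpr hx), rs_nx h0] at h2
      rw [h2, ← h1]
  rw [h3]

/-- The potential of an interface takes two values. -/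
theorem pot_two {e : Ed} (h : IsPot (orb ω e) w) (s : ℤ × ℤ) :
    w s = w (rs e) ∨ w s = w (rs e) + 1 := by
  have he := h e
  rw [if_pos (mem_orb_self ω e)] at he
  have hval : ∀ e' ∈ orb ω e, w (ls e') = w (rs e) + 1 ∧ w (rs e') = w (rs e) := by
    intro e' he'
    have h1 := pot_ls_const h he'
    have h2 := h e'
    rw [if_pos he'] at h2
    omega
  have hadj : ∀ e' : Ed, (w (ls e') = w (rs e) ∨ w (ls e') = w (rs e) + 1) ↔
      (w (rs e') = w (rs e) ∨ w (rs e') = w (rs e) + 1) := by
    intro e'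
    by_cases he' : e' ∈ orb ω e
    · obtain ⟨h1, h2⟩ := hval e' he'
      rw [h1, h2]
      simp
    · have h1 := h e'
      rw [if_neg he', add_zero] at h1
      rw [h1]
  set p : ℤ × ℤ → Prop := fun s => w s = w (rs e) ∨ w s = w (rs e) + 1 with hp
  have hor : ∀ x y : ℤ, p (x + 1, y) ↔ p (x, y) := by
    intro x y
    have h1 := hadj (Sum.inr (x, y - 1))
    by_cases hev : Even (x + (y - 1))
    · simp only [ls, rs, hev, if_true, sub_add_cancel] at h1
      exact h1
    · simp only [ls, rs, hev, if_false, sub_add_cancel] at h1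
      exact h1.symm
  have ver : ∀ x y : ℤ, p (x, y + 1) ↔ p (x, y) := by
    intro x y
    have h1 := hadj (Sum.inl (x - 1, y))
    by_cases hev : Even (x - 1 + y)
    · simp only [ls, rs, hev, if_true, sub_add_cancel] at h1
      exact h1
    · simp only [ls, rs, hev, if_false, sub_add_cancel] at h1
      exact h1.symm
  have key : ∀ q : ℤ → Prop, (∀ n, q (n + 1) ↔ q n) → ∀ a b, q a → q b := by
    intro q hq a b ha
    have h0 : ∀ n : ℤ, q n ↔ q 0 := by
      intro n
      induction n using Int.induction_on with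
      | zero => rfl
      | succ n ih => rw [hq, ih]
      | pred n ih => rw [← ih, ← hq (-(n : ℤ) - 1), sub_add_cancel]
    exact (h0 b).mpr ((h0 a).mp ha)
  have h0 : p (rs e) := Or.inl rfl
  obtain ⟨x, y⟩ := s
  have h1 : p ((rs e).1, y) := key (fun n => p ((rs e).1, n)) (fun n => ver _ n) (rs e).2 y h0
  exact key (fun n => p (n, y)) (fun n => hor n y) (rs e).1 x h1

end Vale.Agent.P167.K8
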