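import Vale.Agent.P167.K8.Defs
import Vale.Agent.P167.K8.Pot

/-!
# P167, GQ8, K.10: at most three interfaces enter a box and leave the large box
-/

namespace Vale.Agent.P167.K8

open Finset Vale.Agent.P167 Vale.Agent.P167.FK
open Vale.Agent.P145.FB (PStep PConn)

/-! ### Integer sequences -/

theorem window {A B : ℕ → ℤ} {m R : ℤ} (hmR : m < R) (h1 : ∀ k, A k ≤ B k + 1 ∧ B k ≤ A k + 1)
    (h2 : ∀ k, (A (k + 1) = A k ∧ B (k + 1) ≤ B k + 1 ∧ B k ≤ B (k + 1) + 1) ∨
      (B (k + 1) = B k ∧ A (k + 1) ≤ A k + 1 ∧ A k ≤ A (k + 1) + 1))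
    (h0 : A 0 ≤ m ∨ B 0 ≤ m) {n : ℕ} (hn : R ≤ A n ∧ R ≤ B n) :
    ∃ i j, i ≤ j ∧ A i = m + 1 ∧ B i = m + 1 ∧ A j = R ∧ B j = R ∧
      ∀ k, i ≤ k → k ≤ j → (m < A k ∧ A k ≤ R) ∧ (m < B k ∧ B k ≤ R) := by
  classical
  have hex : ∃ j, R ≤ A j ∧ R ≤ B j := ⟨n, hn⟩
  obtain ⟨j, hj, hjmin⟩ : ∃ j, (R ≤ A j ∧ R ≤ B j) ∧ ∀ k < j, ¬ (R ≤ A k ∧ R ≤ B k) :=
    ⟨Nat.find hex, Nat.find_spec hex, fun k hk => Nat.find_min hex hk⟩
  have hle : ∀ k < j, A k ≤ R ∧ B k ≤ R := by
    intro k hk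
    have := hjmin k hk
    have := h1 k
    omega
  have hj0 : 0 < j := by
    rcases Nat.eq_zero_or_pos j with h | h
    · subst h; omega
    · exact h
  have hjeq : A j = R ∧ B j = R := by
    obtain ⟨j', rfl⟩ : ∃ j', j = j' + 1 := ⟨j - 1, by omega⟩
    have := hle j' (by omega)
    have := hjmin j' (by omega)
    have := h2 j'
    omega
  set P : ℕ → Prop := fun k => A k ≤ m ∨ B k ≤ m with hP
  have hP0 : P 0 := h0
  set i := Nat.findGreatest P j with hi
  have hPi : P i := Nat.findGreatest_spec (Nat.zero_le j) hP0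
  have hij : i ≤ j := Nat.findGreatest_le j
  have hne : i ≠ j := by
    intro h
    rw [h] at hPi
    simp only [hP] at hPi
    omega
  have hgt : ∀ k, i < k → k ≤ j → ¬ P k := fun k hk hkj => Nat.findGreatest_is_greatest hk hkj
  have hi1 := hgt (i + 1) (by omega) (by omega)
  have h3 := h2 i
  have h4 := h1 i
  have h5 := h1 (i + 1)
  simp only [hP] at hPi hi1 hgt
  refine ⟨i + 1, j, by omega, by omega, by omega, hjeq.1, hjeq.2, fun k hk hkj => ?_⟩
  have h6 := hgt k (by omega) hkj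
  rcases Nat.lt_or_ge k j with h7 | h7
  · have := hle k h7
    omega
  · have : k = j := by omega
    subst this
    omega

/-! ### Strands -/

/-- Two consecutive edges of an interface, in either direction. -/
def St (ω : Cfg) (e e' : Ed) : Prop :=
  (ls e' = ls e ∧ PStep (op ω)ᶜ (rs e) (rs e')) ∨ (rs e' = rs e ∧ PStep (op ω) (ls e) (ls e'))

theorem St.symm {ω : Cfg} {e e' : Ed} (h : St ω e e') : St ω e' e := by
  rcases h with ⟨h1, h2⟩ | ⟨h1, h2⟩
  · exact Or.inl ⟨h1.symm, h2.symm⟩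
  · exact Or.inr ⟨h1.symm, h2.symm⟩

theorem st_nx (ω : Cfg) (e : Ed) : St ω e (nx ω e) := by
  obtain ⟨h1, h2⟩ := H166.nx_step ω e
  cases h : ω (hdv e) with
  | true =>
    obtain ⟨h3, h4⟩ := h1 h
    exact Or.inr ⟨h4, H166.PStep_mono (Set.singleton_subset_iff.mpr h) h3⟩
  | false =>
    obtain ⟨h3, h4⟩ := h2 h
    refine Or.inl ⟨h3, H166.PStep_mono (Set.singleton_subset_iff.mpr ?_) h4⟩
    simp [op, h]

theorem st_pv (ω : Cfg) (e : Ed) : St ω e (pv ω e) := by
  have := st_nx ω (pv ω e)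
  rw [nx_pv] at this
  exact this.symm

theorem nm_step {F : Set (ℤ × ℤ)} {u v : ℤ × ℤ} (h : PStep F u v) :
    nm v ≤ nm u + 1 ∧ nm u ≤ nm v + 1 := by
  obtain ⟨h1, h2, -⟩ := h
  simp only [nm, abs_eq_max_neg]
  omega

theorem nm_ls_rs (e : Ed) : nm (ls e) ≤ nm (rs e) + 1 ∧ nm (rs e) ≤ nm (ls e) + 1 := by
  rcases e with ⟨x, y⟩ | ⟨x, y⟩ <;> by_cases h : Even (x + y) <;> simp only [ls, rs, h, if_true,
    if_false, nm, abs_eq_max_neg] <;> omega

variable {ω : Cfg} {m R : ℤ}

/-- The edge starts a crossing of the annulus, with a primal component on the left and a dual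
component on the right. -/
def Crs (ω : Cfg) (m R : ℤ) (e : Ed) : Prop :=
  (nm (ls e) = m + 1 ∧ ∃ t, nm t = R ∧ PConn (op ω) (an m R) (ls e) t) ∧
  (nm (rs e) = m + 1 ∧ ∃ t, nm t = R ∧ PConn (op ω)ᶜ (an m R) (rs e) t)

theorem strand {c : ℕ → Ed} (hc : ∀ k, St ω (c k) (c (k + 1))) (hmR : m < R)
    (h0 : nm (ls (c 0)) ≤ m ∨ nm (rs (c 0)) ≤ m) {n : ℕ}
    (hn : R ≤ nm (ls (c n)) ∧ R ≤ nm (rs (c n))) : ∃ i, Crs ω m R (c i) := by
  obtain ⟨i, j, hij, h1, h2, h3, h4, h5⟩ := window (A := fun k => nm (ls (c k)))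
    (B := fun k => nm (rs (c k))) hmR (fun k => nm_ls_rs (c k)) (fun k => by
      rcases hc k with ⟨h1, h2⟩ | ⟨h1, h2⟩
      · exact Or.inl ⟨by rw [h1], nm_step h2⟩
      · exact Or.inr ⟨by rw [h1], nm_step h2⟩) h0 hn
  have key : ∀ k, i ≤ k → k ≤ j → PConn (op ω) (an m R) (ls (c i)) (ls (c k)) ∧
      PConn (op ω)ᶜ (an m R) (rs (c i)) (rs (c k)) := by
    intro k hk
    induction k, hk using Nat.le_induction with
    | base =>
      intro hj
      have := h5 i le_rfl hij
      exact ⟨PConn.refl this.1, PConn.refl this.2⟩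
    | succ k hk ih =>
      intro hj
      obtain ⟨h6, h7⟩ := ih (by omega)
      have h8 := h5 (k + 1) (by omega) hj
      rcases hc k with ⟨h9, h10⟩ | ⟨h9, h10⟩
      · exact ⟨by rw [h9]; exact h6, h7.tail h10 h8.2⟩
      · exact ⟨h6.tail h10 h8.1, by rw [h9]; exact h7⟩
  obtain ⟨h6, h7⟩ := key j hij le_rfl
  exact ⟨i, ⟨h1, _, h3, h6⟩, ⟨h2, _, h4, h7⟩⟩

/-- An interface which visits both sides of the annulus contains a crossing. -/
theorem exists_crs (hmR : m < R) {e e' : Ed} (he : nm (ls e) ≤ m ∨ nm (rs e) ≤ m)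
    (he' : e' ∈ orb ω e) (h' : R ≤ nm (ls e') ∧ R ≤ nm (rs e')) :
    ∃ e'' ∈ orb ω e, Crs ω m R e'' := by
  obtain ⟨n, hn | hn⟩ := he'
  · obtain ⟨i, hi⟩ := strand (c := fun k => (nx ω)^[k] e) (fun k => by
      simp only [Function.iterate_succ_apply']
      exact st_nx ω _) hmR he (n := n) (by simp only [hn]; exact h')
    exact ⟨_, ⟨i, Or.inl rfl⟩, hi⟩
  · have hback : ∀ k : ℕ, (nx ω)^[k] ((pv ω)^[k] e) = e := by
      intro k
      induction k with
      | zero => rfl
      | succ k ih =>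
        rw [Function.iterate_succ_apply' (pv ω), Function.iterate_succ_apply (nx ω), nx_pv, ih]
    have hn' : (pv ω)^[n] e = e' := ((s_nx ω).1.iterate n) (by rw [hback, hn])
    obtain ⟨i, hi⟩ := strand (c := fun k => (pv ω)^[k] e) (fun k => by
      simp only [Function.iterate_succ_apply']
      exact st_pv ω _) hmR he (n := n) (by simp only [hn']; exact h')
    exact ⟨_, ⟨i, Or.inr (hback i)⟩, hi⟩

/-! ### Counting -/

theorem pot_PConn {O : Set Ed} {w : ℤ × ℤ → ℤ} (hO : Inv ω O) (h : IsPot O w) {T : Set (ℤ × ℤ)}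
    {s t : ℤ × ℤ} (hs : Even (s.1 + s.2)) (hst : PConn (op ω) T s t) : w s = w t := by
  have key : w s = w t ∧ Even (t.1 + t.2) := by
    obtain ⟨-, hst⟩ := hst
    induction hst with
    | refl => exact ⟨rfl, hs⟩
    | tail _ h1 ih =>
      exact ⟨ih.1.trans (pot_step hO h (Or.inl ⟨ih.2, h1.1⟩)), even_step h1.1 ih.2⟩
  exact key.1

theorem pot_PConn' {O : Set Ed} {w : ℤ × ℤ → ℤ} (hO : Inv ω O) (h : IsPot O w) {T : Set (ℤ × ℤ)}
    {s t : ℤ × ℤ} (hs : Odd (s.1 + s.2)) (hst : PConn (op ω)ᶜ T s t) : w s = w t := by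
  have key : w s = w t ∧ Odd (t.1 + t.2) := by
    obtain ⟨-, hst⟩ := hst
    induction hst with
    | refl => exact ⟨rfl, hs⟩
    | tail _ h1 ih =>
      refine ⟨ih.1.trans (pot_step hO h (Or.inr ⟨ih.2, h1.1⟩)), ?_⟩
      have h2 := h1.1
      obtain ⟨h3, h4, -⟩ := h2
      have := ih.2
      rw [Int.odd_iff] at this ⊢
      omega
  exact key.1

theorem PConn_set_eq {F T : Set (ℤ × ℤ)} {s t : ℤ × ℤ} (ht : t ∈ T)
    (h : {u | PConn F T s u} = {u | PConn F T t u}) : PConn F T s t := by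
  have : t ∈ {u | PConn F T t u} := PConn.refl ht
  rw [← h] at this
  exact this

open Classical in
/-- Without three crossing components of each kind there are no four crossing interfaces. -/
theorem no_four (hT : ¬ Tri m R ω) (hD : ¬ TriD m R ω) (e : Fin 4 → Ed)
    (hc : ∀ i, Crs ω m R (e i)) (hne : ∀ i j, i ≠ j → e i ∉ orb ω (e j)) : False := by
  -- components
  set cP : Fin 4 → Set (ℤ × ℤ) := fun i => {t | PConn (op ω) (an m R) (ls (e i)) t} with hcP
  set cD : Fin 4 → Set (ℤ × ℤ) := fun i => {t | PConn (op ω)ᶜ (an m R) (rs (e i)) t} with hcD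
  have hPcard : (univ.image cP).card ≤ 2 := by
    by_contra hcon
    push Not at hcon
    obtain ⟨a, b, c, ha, hb, hcc, hab, hac, hbc⟩ := Finset.two_lt_card_iff.mp hcon
    obtain ⟨i, -, rfl⟩ := Finset.mem_image.mp ha
    obtain ⟨j, -, rfl⟩ := Finset.mem_image.mp hb
    obtain ⟨k, -, rfl⟩ := Finset.mem_image.mp hcc
    have hconn : ∀ i j, PConn (op ω) (an m R) (ls (e i)) (ls (e j)) → cP i = cP j := by
      intro i j h
      ext t
      exact ⟨fun h' => h.symm.trans h', fun h' => h.trans h'⟩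
    refine hT ⟨![ls (e i), ls (e j), ls (e k)], ?_, ?_⟩
    · intro l
      fin_cases l <;> simp only [Fin.isValue, Fin.zero_eta, Fin.mk_one, Fin.reduceFinMk,
        Matrix.cons_val_zero, Matrix.cons_val_one, Matrix.cons_val]
      · exact ⟨even_ls _, (hc i).1⟩
      · exact ⟨even_ls _, (hc j).1⟩
      · exact ⟨even_ls _, (hc k).1⟩
    · intro l l' hl hconn'
      fin_cases l <;> fin_cases l' <;> simp at hl <;> simp at hconn'
      · exact hab (hconn _ _ hconn')
      · exact hac (hconn _ _ hconn')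
      · exact hab (hconn _ _ hconn').symm
      · exact hbc (hconn _ _ hconn')
      · exact hac (hconn _ _ hconn').symm
      · exact hbc (hconn _ _ hconn').symm
  have hDcard : (univ.image cD).card ≤ 2 := by
    by_contra hcon
    push Not at hcon
    obtain ⟨a, b, c, ha, hb, hcc, hab, hac, hbc⟩ := Finset.two_lt_card_iff.mp hcon
    obtain ⟨i, -, rfl⟩ := Finset.mem_image.mp ha
    obtain ⟨j, -, rfl⟩ := Finset.mem_image.mp hb
    obtain ⟨k, -, rfl⟩ := Finset.mem_image.mp hcc
    have hconn : ∀ i j, PConn (op ω)ᶜ (an m R) (rs (e i)) (rs (e j)) → cD i = cD j := by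
      intro i j h
      ext t
      exact ⟨fun h' => h.symm.trans h', fun h' => h.trans h'⟩
    refine hD ⟨![rs (e i), rs (e j), rs (e k)], ?_, ?_⟩
    · intro l
      fin_cases l <;> simp only [Fin.isValue, Fin.zero_eta, Fin.mk_one, Fin.reduceFinMk,
        Matrix.cons_val_zero, Matrix.cons_val_one, Matrix.cons_val]
      · exact ⟨odd_rs _, (hc i).2⟩
      · exact ⟨odd_rs _, (hc j).2⟩
      · exact ⟨odd_rs _, (hc k).2⟩
    · intro l l' hl hconn'
      fin_cases l <;> fin_cases l' <;> simp at hl <;> simp at hconn'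
      · exact hab (hconn _ _ hconn')
      · exact hac (hconn _ _ hconn')
      · exact hab (hconn _ _ hconn').symm
      · exact hbc (hconn _ _ hconn')
      · exact hac (hconn _ _ hconn').symm
      · exact hbc (hconn _ _ hconn').symm
  -- potentials
  have hw : ∀ j, ∃ w : ℤ × ℤ → ℤ, IsPot (orb ω (e j)) w := fun j => by
    obtain ⟨w, h1, h2⟩ := exists_pot (inv_orb ω (e j))
    exact ⟨w, isPot_of h1 h2⟩
  choose w hw using hw
  have hr0 : ∀ C : (univ.image cP : Finset (Set (ℤ × ℤ))), ∃ i, cP i = C.1 := fun C => by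
    obtain ⟨i, -, h⟩ := Finset.mem_image.mp C.2
    exact ⟨i, h⟩
  have hr1 : ∀ C : (univ.image cD : Finset (Set (ℤ × ℤ))), ∃ i, cD i = C.1 := fun C => by
    obtain ⟨i, -, h⟩ := Finset.mem_image.mp C.2
    exact ⟨i, h⟩
  choose p hp using hr0
  choose d hd using hr1
  have hmem : ∀ i, ls (e i) ∈ an m R ∧ rs (e i) ∈ an m R := fun i =>
    ⟨(hc i).1.2.choose_spec.2.1, (hc i).2.2.choose_spec.2.1⟩
  let Mx : Matrix ((univ.image cP : Finset (Set (ℤ × ℤ))) ⊕ (univ.image cD : Finset (Set (ℤ × ℤ))))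
      (Option (Fin 4)) ℚ := fun q j =>
    match j with
    | none => 1
    | some j => (w j (Sum.elim (fun C => ls (e (p C))) (fun C => rs (e (d C))) q) : ℚ)
  have hinj : Function.Injective Mx.mulVecLin := by
    rw [injective_iff_map_eq_zero]
    intro a ha
    have hrow : ∀ q, ∑ j : Option (Fin 4), Mx q j * a j = 0 := fun q => congrFun ha q
    have hrow' : ∀ q, a none + ∑ j : Fin 4,
        (w j (Sum.elim (fun C => ls (e (p C))) (fun C => rs (e (d C))) q) : ℚ) * a (some j) = 0 := by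
      intro q
      have h := hrow q
      rw [Fintype.sum_option] at h
      simpa only [Mx, one_mul] using h
    have hz : ∀ i, a (some i) = 0 := by
      intro i
      have h1 := hrow' (Sum.inl ⟨cP i, Finset.mem_image_of_mem _ (Finset.mem_univ _)⟩)
      have h2 := hrow' (Sum.inr ⟨cD i, Finset.mem_image_of_mem _ (Finset.mem_univ _)⟩)
      simp only [Sum.elim_inl, Sum.elim_inr] at h1 h2
      have h3 : ∀ j, w j (ls (e (p ⟨cP i, Finset.mem_image_of_mem _ (Finset.mem_univ _)⟩))) =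
          w j (ls (e i)) := fun j =>
        pot_PConn (inv_orb ω (e j)) (hw j) (even_ls _)
          (PConn_set_eq (hmem _).1 (hp ⟨cP i, _⟩))
      have h4 : ∀ j, w j (rs (e (d ⟨cD i, Finset.mem_image_of_mem _ (Finset.mem_univ _)⟩))) =
          w j (rs (e i)) := fun j =>
        pot_PConn' (inv_orb ω (e j)) (hw j) (odd_rs _)
          (PConn_set_eq (hmem _).2 (hd ⟨cD i, _⟩))
      simp only [h3] at h1
      simp only [h4] at h2
      have h5 : ∑ j : Fin 4, ((w j (ls (e i)) : ℚ) - w j (rs (e i))) * a (some j) = 0 := by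
        simp only [sub_mul, Finset.sum_sub_distrib]
        linarith
      have h6 : ∀ j, ((w j (ls (e i)) : ℚ) - w j (rs (e i))) = if j = i then 1 else 0 := by
        intro j
        have h7 := hw j (e i)
        by_cases h8 : j = i
        · rw [if_pos h8]
          rw [if_pos (by rw [h8]; exact mem_orb_self ω (e i))] at h7
          rw [h7]
          push_cast
          ring
        · rw [if_neg h8]
          rw [if_neg (hne i j (Ne.symm h8))] at h7
          rw [h7]
          push_cast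
          ring
      simp only [h6, ite_mul, one_mul, zero_mul, Finset.sum_ite_eq', Finset.mem_univ,
        if_true] at h5
      exact h5
    funext j
    rcases j with _ | j
    · have h1 := hrow' (Sum.inl ⟨cP 0, Finset.mem_image_of_mem _ (Finset.mem_univ _)⟩)
      simp only [hz, mul_zero, Finset.sum_const_zero, add_zero] at h1
      exact h1
    · exact hz j
  have h := LinearMap.finrank_le_finrank_of_injective hinj
  rw [Module.finrank_fintype_fun_eq_card, Module.finrank_fintype_fun_eq_card,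
    Fintype.card_sum, Fintype.card_option, Fintype.card_fin, Fintype.card_coe,
    Fintype.card_coe] at h
  omega

end Vale.Agent.P167.K8
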