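import Vale.Agent.P167.K8.Arc1

/-!
# P167, GQ8, K.10: interfaces which leave the large box; flux through an interface
-/

namespace Vale.Agent.P167.K8

open Finset Vale.Agent.P167 Vale.Agent.P167.FK
open Vale.Agent.P145.FB (PStep PConn)
open Vale.Agent.P167.H685 (fs bs dv)

variable {ω : Cfg} {m R : ℤ} {b : ℝ} {E : Finset Ed} {a : Ed → ℝ} {f : ℤ × ℤ → ℝ}

/-- The edge is on a loop which visits only squares of the box. -/
def InB (ω : Cfg) (R : ℤ) (e : Ed) : Prop := ∃ ℓ, IsLoop ω ℓ ∧ vs ℓ ⊆ Bq 0 R ∧ e ∈ ℓ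

theorem finite_near (R : ℤ) : {e : Ed | nm (ls e) < R ∨ nm (rs e) < R}.Finite := by
  classical
  set B : Finset (ℤ × ℤ) := (Finset.Icc (-R - 2) (R + 2)) ×ˢ (Finset.Icc (-R - 2) (R + 2)) with hB
  refine ((B.image Sum.inl ∪ B.image Sum.inr : Finset Ed).finite_toSet).subset ?_
  intro e he
  rw [Finset.mem_coe, Finset.mem_union, Finset.mem_image, Finset.mem_image]
  rcases e with ⟨x, y⟩ | ⟨x, y⟩
  · left
    refine ⟨(x, y), ?_, rfl⟩
    rw [hB, Finset.mem_product, Finset.mem_Icc, Finset.mem_Icc]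
    simp only [Set.mem_ofPred_eq, nm, ls, rs, abs_eq_max_neg] at he
    split_ifs at he <;> simp only at he ⊢ <;> omega
  · right
    refine ⟨(x, y), ?_, rfl⟩
    rw [hB, Finset.mem_product, Finset.mem_Icc, Finset.mem_Icc]
    simp only [Set.mem_ofPred_eq, nm, ls, rs, abs_eq_max_neg] at he
    split_ifs at he <;> simp only at he ⊢ <;> omega

theorem far_of_hdv {e : Ed} (h : hdv e ∉ Bq 0 R) : R ≤ nm (ls e) ∧ R ≤ nm (rs e) := by
  obtain ⟨h1, h2, h3, h4, -, -⟩ := H166.corner e
  simp only [Bq, Finset.mem_product, Finset.mem_Ico, Prod.fst_zero, Prod.snd_zero] at h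
  simp only [nm, abs_eq_max_neg]
  omega

/-- An interface which visits the small box and is not a loop of the large box crosses. -/
theorem leaves (hmR : m < R) {e : Ed} (he : nm (ls e) ≤ m ∨ nm (rs e) ≤ m) (hno : ¬ InB ω R e) :
    ∃ e'' ∈ orb ω e, Crs ω m R e'' := by
  classical
  by_cases hex : ∃ e' ∈ orb ω e, R ≤ nm (ls e') ∧ R ≤ nm (rs e')
  · obtain ⟨e', h1, h2⟩ := hex
    exact exists_crs hmR he h1 h2
  · exfalso
    push Not at hex
    have hfin : (orb ω e).Finite := (finite_near R).subset fun e' he' => by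
      rw [Set.mem_ofPred_eq]
      by_cases h : R ≤ nm (ls e')
      · exact Or.inr (hex e' he' h)
      · exact Or.inl (not_le.mp h)
    obtain ⟨ℓ, h1, h2, h3⟩ := exists_loop_of_inv (U := hfin.toFinset) (fun x hx => by
      rw [Set.Finite.mem_toFinset] at hx ⊢
      exact (inv_orb ω e x).mpr hx) ((Set.Finite.mem_toFinset hfin).mpr (mem_orb_self ω e))
    refine hno ⟨ℓ, h1, fun v hv => ?_, h2⟩
    obtain ⟨e', he', rfl⟩ := Finset.mem_image.mp hv
    by_contra hcon
    obtain ⟨h4, h5⟩ := far_of_hdv hcon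
    have h6 := hex e' ((Set.Finite.mem_toFinset hfin).mp (h3 he')) h4
    omega

/-- A loop is the interface through each of its edges. -/
theorem orb_of_loop {ℓ : Finset Ed} (h : IsLoop ω ℓ) {e : Ed} (he : e ∈ ℓ) (e' : Ed) :
    e' ∈ orb ω e ↔ e' ∈ ℓ := by
  constructor
  · intro h'
    exact orb_subset_of_inv (O := (ℓ : Set Ed)) (fun x => by
      rw [Finset.mem_coe, Finset.mem_coe]; exact h.nx_mem_iff) he h'
  · intro h'
    exact h.induct (p := fun x => x ∈ orb ω e) (fun x _ hx => (inv_orb ω e x).mpr hx) he h'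
      (mem_orb_self ω e)

/-! ### Flux -/

open Classical in
/-- The flux through an interface. -/
noncomputable def flux (E : Finset Ed) (a : Ed → ℝ) (U : Set Ed) : ℝ :=
  ∑ e ∈ E with e ∈ U, a e * sg e

theorem supp_finite (h : Adm m b E a f) : f.support.Finite :=
  (H166.box_finite 0 m).subset fun s hs => by
    rw [Set.mem_ofPred_eq, sub_zero]
    exact h.supp s hs

theorem adm_nonneg (h : Adm m b E a f) : 0 ≤ b := by
  have := h.part ∅
  simpa using this

theorem a_finite (h : Adm m b E a f) : a.support.Finite :=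
  E.finite_toSet.subset fun e he => by
    by_contra hn
    exact he (h.off e hn)

theorem flux_pot (h : Adm m b E a f) {U : Set Ed} {w : ℤ × ℤ → ℤ}
    (h1 : ∀ x y, w (x + 1, y + 1) - w (x + 1, y) = Jm U (Sum.inl (x, y)))
    (h2 : ∀ x y, w (x, y + 1) - w (x + 1, y + 1) = Jm U (Sum.inr (x, y))) :
    flux E a U = ∑' s, (w s : ℝ) * f s := by
  classical
  have e1 : flux E a U = ∑' e, a e * (Jm U e : ℝ) := by
    unfold flux
    rw [tsum_eq_sum (s := E), Finset.sum_filter]
    · refine Finset.sum_congr rfl fun e _ => ?_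
      unfold Jm
      split_ifs <;> simp
    · intro e he
      rw [h.off e he, zero_mul]
  rw [e1, sum_jump (J := fun e => (Jm U e : ℝ)) (H := fun v => (w (v.1 + 1, v.2 + 1) : ℝ)) ?_ ?_
    (a_finite h)]
  · let φ : ℤ × ℤ ≃ ℤ × ℤ := ⟨fun v => (v.1 + 1, v.2 + 1), fun v => (v.1 - 1, v.2 - 1),
      fun v => by simp, fun v => by simp⟩
    rw [← φ.tsum_eq fun s : ℤ × ℤ => (w s : ℝ) * f s]
    refine tsum_congr fun v => ?_
    rw [← h.div]
    simp [φ, fs]
  · intro x y
    rw [← h1 x y]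
    simp
  · intro x y
    rw [← h2 x y]
    simp

/-- The flux through an interface is at most `b`. -/
theorem flux_le (h : Adm m b E a f) (e : Ed) : |flux E a (orb ω e)| ≤ b := by
  classical
  obtain ⟨w, h1, h2⟩ := exists_pot (inv_orb ω e)
  have hP := isPot_of h1 h2
  rw [flux_pot h h1 h2]
  set c := w (rs e) with hc
  set S : Set (ℤ × ℤ) := {s | w s = c + 1} with hS
  have hfin := supp_finite h
  have e1 : ∑' s, (w s : ℝ) * f s = ∑ s ∈ hfin.toFinset, (w s : ℝ) * f s := by
    rw [tsum_eq_sum]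
    intro s hs
    have : f s = 0 := by
      by_contra hne
      exact hs ((Set.Finite.mem_toFinset hfin).mpr hne)
    rw [this, mul_zero]
  have e2 : ∑ s ∈ hfin.toFinset, f s = 0 := by
    have := h.sum
    rwa [finsum_eq_sum_of_support_subset f (s := hfin.toFinset) (by simp)] at this
  have e3 : ∑ᶠ s ∈ S, f s = ∑ s ∈ hfin.toFinset with s ∈ S, f s := by
    rw [finsum_mem_eq_sum_filter f S hfin]
  have e4 : ∀ s, (w s : ℝ) * f s = c * f s + if s ∈ S then f s else 0 := by
    intro s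
    rcases pot_two hP s with h3 | h3
    · have : s ∉ S := by
        rw [hS, Set.mem_ofPred_eq]
        omega
      rw [if_neg this, h3]
      ring
    · rw [if_pos (show s ∈ S from h3), h3]
      push_cast
      ring
  rw [e1]
  simp only [e4]
  rw [Finset.sum_add_distrib, ← Finset.mul_sum, e2, mul_zero, zero_add, ← Finset.sum_filter, ← e3]
  exact h.part S

/-- The flux through a loop. -/
theorem flux_loop (h : Adm m b E a f) {ℓ : Finset Ed} (hℓ : IsLoop ω ℓ) {e : Ed} (he : e ∈ ℓ) :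
    flux E a (orb ω e) ^ 2 = G f ℓ ^ 2 := by
  classical
  have h1 : flux E a (orb ω e) = ∑' s, (W ℓ s : ℝ) * f s := by
    refine flux_pot h (w := W ℓ) (fun x y => ?_) (fun x y => ?_)
    · rw [W_hor hℓ x y]
      unfold Jm
      simp only [orb_of_loop hℓ he]
    · rw [W_vert ℓ x y]
      unfold Jm
      simp only [orb_of_loop hℓ he]
  rw [h1]
  rcases G_eq hℓ f with ⟨-, h2⟩ | ⟨-, h2⟩
  · rw [h2]
  · rw [h2, neg_sq]

end Vale.Agent.P167.K8
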