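import Vale.Agent.P167.K8.Ccw
import Vale.Agent.P167.H638.KG

/-!
# P167, GQ8: one block
-/

namespace Vale.Agent.P167.K8

open Finset Filter Topology
open Vale.Agent.P145.FB (PStep PConn)
open Vale.Agent.P167.FK Vale.Agent.P167.FKA
open Vale.Agent.P167.H685 (unR sgb)

/-- The bad event. -/
def Bad (m R : ℤ) (ω : Cfg) : Prop := Tri m R ω ∨ TriD m R ω

/-- There is a separating loop. -/
def Sepa (n n' R : ℤ) (ω : Cfg) : Prop := ∃ ℓ ∈ Lin R ω, NT n n' ℓ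

theorem ind_le_of {A : Prop} [Decidable A] {x : ℝ} (h : A → 1 ≤ x) (h0 : 0 ≤ x) :
    (if A then (1 : ℝ) else 0) ≤ x := by
  split_ifs with h1
  · exact h h1
  · exact h0

open Classical in
theorem qs_nonneg (n R : ℤ) (ω : Cfg) : 0 ≤ qs n R ω := by
  unfold qs
  apply finsum_nonneg
  intro ℓ
  apply finsum_nonneg
  intro _
  by_cases h : 0 ≤ min 1 (dm ℓ / (n : ℝ))
  · positivity
  · have : min 1 (dm ℓ / (n : ℝ)) ^ 4 = ((min 1 (dm ℓ / (n : ℝ))) ^ 2) ^ 2 := by ring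
    rw [this]
    positivity

open Classical in
/-- The probabilistic estimate. -/
theorem nosep {θ : ℝ} (h0 : 0 ≤ θ) (h1 : θ ≤ Real.pi / 3) (hp : K_pos) {β CS b : ℝ} {Cm : ℝ}
    (hCS : 0 < CS)
    (hS : ∀ (b : ℝ), 0 ≤ b → b ≤ β → ∀ (m R : ℤ), 1 ≤ m → m + 3 ≤ R →
      ∀ (E : Finset Ed) (a : Ed → ℝ) (f : ℤ × ℤ → ℝ), Adm m b E a f →
      ∀ (M L : ℕ) [NeZero M] [NeZero L], Even M → Even L → 2 * R + 8 ≤ M → 2 * R + 8 ≤ L →
      ET θ M L (fun ω => if Tri m R ω ∨ TriD m R ω then 0 else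
          Real.exp (-CS * ∑ᶠ ℓ ∈ Lin R ω, G f ℓ ^ 2)) ≤
        Real.exp (CS * b ^ 2) * (torU (2 * Real.cos (θ / 2)) M L
            (fun ω => Real.cos (∑ e ∈ E, a e * sgb (ω e))) +
          (1 / Real.cos θ) ^ E.card * ET θ M L ({ω | Tri m R ω ∨ TriD m R ω}.indicator 1)))
    (hb0 : 0 ≤ b) (hb : b ≤ β) {n n' : ℤ} (hn : 1 ≤ n) (hnn : 256 * n ≤ n')
    {m m' : ℤ × ℤ → ℝ} (hm : Chg Cm n m) (hm' : Chg Cm n' m') {mR R : ℤ} (hmR : 1 ≤ mR)
    (hR : mR + 3 ≤ R) {E : Finset Ed} {a : Ed → ℝ}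
    (hA : Adm mR b E a (fun s => b * (m s - m' s))) {M L : ℕ} [NeZero M] [NeZero L]
    (hM : Even M) (hL : Even L) (hM' : 2 * R + 8 ≤ M) (hL' : 2 * R + 8 ≤ L) {s : ℝ} (hs : 0 < s) :
    ET θ M L (fun ω => if Sepa n n' R ω then 0 else 1) ≤
      Real.exp (CS * b ^ 2 * ((65536 + 625 * Cm ^ 2) * s + 1)) *
        (torU (2 * Real.cos (θ / 2)) M L (fun ω => Real.cos (∑ e ∈ E, a e * sgb (ω e))) +
          (1 / Real.cos θ) ^ E.card * ET θ M L ({ω | Bad mR R ω}.indicator 1)) +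
      ET θ M L ({ω | Bad mR R ω}.indicator 1) +
      (ET θ M L (fun ω => qs n R ω) + ET θ M L (fun ω => qs n' R ω)) / s := by
  have hlt := lt_half h1
  set A : ℝ := 65536 + 625 * Cm ^ 2 with hAdef
  have hA0 : 0 ≤ A := by positivity
  set K1 : ℝ := Real.exp (CS * b ^ 2 * (A * s)) with hK1
  have key : ET θ M L (fun ω => if Sepa n n' R ω then 0 else 1) ≤
      ET θ M L (fun ω => K1 * (if Tri mR R ω ∨ TriD mR R ω then 0 else
          Real.exp (-CS * ∑ᶠ ℓ ∈ Lin R ω, G (fun s => b * (m s - m' s)) ℓ ^ 2)) +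
        ({ω | Bad mR R ω}.indicator 1 ω + (1 / s) * (qs n R ω + qs n' R ω))) := by
    refine ET_mono hp h0 hlt fun ρ => ?_
    set ω := unR ρ
    have q1 := qs_nonneg n R ω
    have q2 := qs_nonneg n' R ω
    have q3 : 0 ≤ (1 / s) * (qs n R ω + qs n' R ω) := by positivity
    have q4 : (0 : ℝ) ≤ {ω | Bad mR R ω}.indicator 1 ω := ind_nonneg _ _
    have q5 : 0 ≤ K1 * (if Tri mR R ω ∨ TriD mR R ω then (0 : ℝ) else
          Real.exp (-CS * ∑ᶠ ℓ ∈ Lin R ω, G (fun s => b * (m s - m' s)) ℓ ^ 2)) := by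
      apply mul_nonneg (Real.exp_pos _).le
      split_ifs
      · exact le_rfl
      · exact (Real.exp_pos _).le
    by_cases hsep : Sepa n n' R ω
    · rw [if_pos hsep]
      linarith
    · rw [if_neg hsep]
      by_cases hbad : Bad mR R ω
      · have : ({ω | Bad mR R ω}.indicator 1 ω : ℝ) = 1 :=
          Set.indicator_of_mem (show ω ∈ {ω | Bad mR R ω} from hbad) _
        linarith
      · by_cases hY : s ≤ qs n R ω + qs n' R ω
        · have : 1 ≤ (1 / s) * (qs n R ω + qs n' R ω) := by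
            rw [one_div, ← div_eq_inv_mul, le_div_iff₀ hs]
            linarith
          linarith
        · push Not at hY
          have hb2 : ¬ (Tri mR R ω ∨ TriD mR R ω) := hbad
          rw [if_neg hb2]
          have h3 := sum_sq_le (b := b) hn hnn hm hm' (ω := ω) (R := R)
            (fun ℓ hℓ hN => hsep ⟨ℓ, hℓ, hN⟩) (Lin_finite R ω)
          have h4 : ∑ᶠ ℓ ∈ Lin R ω, G (fun s => b * (m s - m' s)) ℓ ^ 2 ≤ b ^ 2 * (A * s) :=
            h3.trans (mul_le_mul_of_nonneg_left (mul_le_mul_of_nonneg_left hY.le hA0)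
              (sq_nonneg b))
          have h5 : 1 ≤ K1 * Real.exp (-CS * ∑ᶠ ℓ ∈ Lin R ω,
              G (fun s => b * (m s - m' s)) ℓ ^ 2) := by
            rw [hK1, ← Real.exp_add, ← Real.exp_zero]
            apply Real.exp_le_exp.2
            have := mul_le_mul_of_nonneg_left h4 hCS.le
            nlinarith
          linarith
  refine key.trans ?_
  rw [ET_add, ET_mul_left, ET_add, ET_mul_left, ET_add]
  have h6 := hS b hb0 hb mR R hmR hR E a _ hA M L hM hL hM' hL'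
  have h7 := mul_le_mul_of_nonneg_left h6 (Real.exp_pos (CS * b ^ 2 * (A * s))).le
  have e1 : Real.exp (CS * b ^ 2 * (A * s + 1)) =
      Real.exp (CS * b ^ 2 * (A * s)) * Real.exp (CS * b ^ 2) := by
    rw [← Real.exp_add]; congr 1; ring
  rw [e1, mul_assoc (Real.exp (CS * b ^ 2 * (A * s)))]
  have e2 : (1 / s) * (ET θ M L (fun ω => qs n R ω) + ET θ M L (fun ω => qs n' R ω)) =
    (ET θ M L (fun ω => qs n R ω) + ET θ M L (fun ω => qs n' R ω)) / s := by ring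
  rw [e2]
  unfold Bad
  linarith

open Classical in
/-- From separating loops to the absence of dual arms. -/
theorem arm_of_sep {θ : ℝ} (h0 : 0 ≤ θ) (h1 : θ ≤ Real.pi / 3) (hp : K_pos) (hd : K_dual)
    (hrb : K_rb) (hdu : DuLoop) {n n' R : ℤ} (hn1 : 1 ≤ n) (hnn : 256 * n ≤ n') {M L : ℕ}
    [NeZero M] [NeZero L] (hMe : Even M) (hLe : Even L) (hM : 2 * n' + 6 ≤ M)
    (hL : 2 * n' + 6 ≤ L)
    (hno : ET θ M L (fun ω => if Sepa n n' R ω then 0 else 1) ≤ 1 / 3) :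
    Pr (2 * Real.cos θ) (Bq 0 n') eta0 {ω | ArmDx 0 (4 * n) n' ω} ≤ 2 / 3 := by
  have hlt := lt_half h1
  have hQ : 1 ≤ 2 * Real.cos θ := by
    have h2 : Real.cos (Real.pi / 3) ≤ Real.cos θ :=
      Real.cos_le_cos_of_nonneg_of_le_pi h0 (by have := Real.pi_pos; linarith) h1
    rw [Real.cos_pi_div_three] at h2
    linarith
  have hQ0 : 0 < 2 * Real.cos θ := by linarith
  have hyes : 2 / 3 ≤ ET θ M L (fun ω => if Sepa n n' R ω then 1 else 0) := by
    have h2 : ET θ M L (fun ω => (if Sepa n n' R ω then (1 : ℝ) else 0) +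
        (if Sepa n n' R ω then 0 else 1)) = 1 := by
      refine Eq.trans (ET_congr (G := fun _ => (1 : ℝ)) fun ρ => ?_)
        (ET_const (θ := θ) (M := M) (L := L) hp h0 hlt 1)
      split_ifs <;> norm_num
    rw [ET_add] at h2
    linarith
  have h2 := hd θ M L (fun ω => if Ccw n n' ω then (1 : ℝ) else 0) hMe hLe
  have hccw : ET θ M L (fun ω => if Sepa n n' R ω then 1 else 0) ≤
      ET θ M L (fun ω => if Ccw n n' ω then (1 : ℝ) else 0) +
      ET θ M L (fun ω => if Ccw n n' (du ω) then (1 : ℝ) else 0) := by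
    rw [← ET_add]
    refine ET_mono hp h0 hlt fun ρ => ?_
    refine ind_le_of (fun hsep => ?_) ?_
    · obtain ⟨ℓ, h3, h4⟩ := hsep
      rcases nt_cases hdu hn1 h3.1 h4 with h5 | h5
      · rw [if_pos h5]
        split_ifs <;> norm_num
      · rw [if_pos h5]
        split_ifs <;> norm_num
    · split_ifs <;> norm_num
  have hfin : ET θ M L (fun ω => if Ccw n n' ω then 1 else 0) ≤
      Ex (2 * Real.cos θ) (Bq 0 n') eta0 (noD (4 * n) n') := by
    refine le_trans (ET_mono hp h0 hlt (G := fun ω => noD (4 * n) n' (fin (Bq 0 n') ω))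
      fun ρ => ?_) ?_
    · exact ind_le_of (fun h => (ccw_le hn1 hnn h).ge) (noD_nonneg _ _ _)
    · exact hrb θ h0 h1 n' M L (by omega) hMe hLe hM hL
        (Bq 0 n') (Finset.Subset.refl _) (noD (4 * n) n') _ (noD_nonneg _ _)
        fun D hD => ex_mono_dom hQ hD (incF_noD _ _)
  have hres : Ex (2 * Real.cos θ) (Bq 0 n') eta0 (noD (4 * n) n') =
      1 - Pr (2 * Real.cos θ) (Bq 0 n') eta0 {ω | ArmDx 0 (4 * n) n' ω} := by
    unfold noD
    rw [Ex_sub, Ex_const hQ0]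
    rfl
  rw [hres] at hfin
  linarith

theorem exists_pow_le {x y : ℝ} (hx : 0 < x) (hy : 0 < y) (C : ℝ) :
    ∃ k : ℕ, 8 ≤ k ∧ C * ((2 ^ k : ℕ) : ℝ) ^ (-x) ≤ y := by
  have h1 : Tendsto (fun k : ℕ => C * ((2 ^ k : ℕ) : ℝ) ^ (-x)) atTop (𝓝 (C * 0)) := by
    refine Tendsto.const_mul _ ?_
    have h2 : Tendsto (fun k : ℕ => ((2 ^ k : ℕ) : ℝ)) atTop atTop := by
      push_cast
      exact tendsto_pow_atTop_atTop_of_one_lt (by norm_num)
    exact (tendsto_rpow_neg_atTop hx).comp h2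
  rw [mul_zero] at h1
  obtain ⟨k, hk⟩ := (((h1.eventually (gt_mem_nhds hy)).and (eventually_ge_atTop 8))).exists
  exact ⟨k, hk.2, hk.1.le⟩

theorem arith {E1 X T B t q1 q2 Cv C1 s c1 c2 A k C : ℝ} (hE1p : 0 < E1) (hX0 : 0 ≤ X)
    (hT' : T ≤ B) (hbkR : (E1 * X + 1) * B ≤ 1 / 12) (ht : t ≤ k)
    (hk : E1 * k ≤ 1 / 12) (hCv : 0 < Cv) (hq1 : q1 ≤ Cv * c1) (hq2 : q2 ≤ Cv * c2) (hc1 : c1 ≤ C)
    (hc2 : c2 ≤ C) (hC1 : C ≤ C1) (hC1' : 1 ≤ C1) (hs : s = 24 * Cv * C1)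
    (key : A ≤ E1 * (t + X * T) + T + (q1 + q2) / s) : A ≤ 1 / 3 := by
  have hs0 : 0 < s := by rw [hs]; positivity
  have hP1 : E1 * (t + X * T) + T ≤ 1 / 12 + 1 / 12 := by
    have h2 : E1 * t ≤ 1 / 12 := (mul_le_mul_of_nonneg_left ht hE1p.le).trans hk
    have h3 : (E1 * X + 1) * T ≤ (E1 * X + 1) * B :=
      mul_le_mul_of_nonneg_left hT' (by positivity)
    have e : E1 * (t + X * T) + T = E1 * t + (E1 * X + 1) * T := by ring
    rw [e]
    linarith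
  have hP2 : (q1 + q2) / s ≤ 1 / 12 := by
    rw [div_le_iff₀ hs0]
    have h2 : q1 ≤ Cv * C1 := hq1.trans (mul_le_mul_of_nonneg_left (hc1.trans hC1) hCv.le)
    have h3 : q2 ≤ Cv * C1 := hq2.trans (mul_le_mul_of_nonneg_left (hc2.trans hC1) hCv.le)
    rw [hs]
    linarith
  linarith

/-- **K.13.** -/
theorem k_blk_of (hp : K_pos) (hd : K_dual) (hrb : K_rb) (hS : K_S) (hG : K_G) (hbk : K_bk)
    (hcov : K_cov) (hdu : DuLoop) : K_blk := by
  classical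
  intro θ h0 h1 C
  have hlt := lt_half h1
  have hQ : 1 ≤ 2 * Real.cos θ := by
    have h2 : Real.cos (Real.pi / 3) ≤ Real.cos θ :=
      Real.cos_le_cos_of_nonneg_of_le_pi h0 (by have := Real.pi_pos; linarith) h1
    rw [Real.cos_pi_div_three] at h2
    linarith
  have hQ0 : 0 < 2 * Real.cos θ := by linarith
  obtain ⟨β, CS, hβ, hCS, hS⟩ := hS θ h0 h1
  obtain ⟨Cm, c, CG, m, hCm, hc, hCG, hChg, hG⟩ := hG θ h0 h1
  obtain ⟨Cv, hCv, hcov⟩ := hcov
  set b : ℝ := min β 1 with hbdef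
  have hb0 : 0 < b := lt_min hβ one_pos
  have hb1 : b ≤ 1 := min_le_right _ _
  have hbβ : b ≤ β := min_le_left _ _
  have hbabs : |b| = b := abs_of_pos hb0
  set C1 : ℝ := max C 1 with hC1
  have hC1' : 1 ≤ C1 := le_max_right _ _
  have hC1C : C ≤ C1 := le_max_left _ _
  set s : ℝ := 24 * Cv * C1 with hs
  have hs0 : 0 < s := by positivity
  set E1 : ℝ := Real.exp (CS * b ^ 2 * ((65536 + 625 * Cm ^ 2) * s + 1)) with hE1
  have hE1p : 0 < E1 := Real.exp_pos _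
  obtain ⟨k, hk8, hk⟩ := exists_pow_le (x := c * b ^ 2) (y := 1 / 12) (by positivity)
    (by norm_num) (E1 * CG)
  have hk4 : 4 ≤ 2 ^ k := by
    calc 4 = 2 ^ 2 := by norm_num
      _ ≤ 2 ^ k := Nat.pow_le_pow_right (by norm_num) (by omega)
  have hev := (hG b (by rw [hbabs]; exact hb1) (2 ^ k) hk4).and
    (hChg.and (eventually_ge_atTop 1))
  rw [eventually_atTop] at hev
  obtain ⟨N0, hN0⟩ := hev
  refine ⟨k, N0, hk8, ?_⟩
  intro r g hSc J hJ hcJ hcJk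
  -- the scales
  have hJn : N0 ≤ 2 ^ J := hJ.trans Nat.lt_two_pow_self.le
  have hJk : N0 ≤ 2 ^ k * 2 ^ J := hJn.trans (Nat.le_mul_of_pos_left _ (by positivity))
  obtain ⟨hG1, hm, -⟩ := hN0 (2 ^ J) hJn
  obtain ⟨-, hm', -⟩ := hN0 (2 ^ k * 2 ^ J) hJk
  obtain ⟨n, hn⟩ : ∃ n : ℤ, n = 2 ^ J := ⟨_, rfl⟩
  obtain ⟨n', hn'⟩ : ∃ n' : ℤ, n' = 2 ^ (J + k) := ⟨_, rfl⟩
  have hn1 : 1 ≤ n := by rw [hn]; exact one_le_pow₀ (by norm_num)
  have hnn : 256 * n ≤ n' := by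
    rw [hn, hn', pow_add, mul_comm]
    have : (2 : ℤ) ^ 8 ≤ 2 ^ k := pow_le_pow_right₀ (by norm_num) hk8
    nlinarith
  have cn : (((2 ^ J : ℕ) : ℝ)) = (n : ℝ) := by rw [hn]; push_cast; rfl
  have cn' : (((2 ^ k * 2 ^ J : ℕ) : ℝ)) = (n' : ℝ) := by
    rw [hn']; push_cast; rw [pow_add]; ring
  rw [cn] at hm
  rw [cn'] at hm'
  obtain ⟨mR, hmR⟩ : ∃ mR : ℤ, mR = 2 * n' + 3 := ⟨_, rfl⟩
  obtain ⟨E, a, hAdm⟩ := H638.adm_chg hm hm' b (R := mR) (by omega)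
    (by
      rw [hmR]; push_cast
      have : (n : ℝ) ≤ n' := by exact_mod_cast (by linarith : n ≤ n')
      linarith)
    (by rw [hmR]; push_cast; exact le_rfl)
  rw [hbabs] at hAdm
  have hGE := hG1 E a hAdm.off hAdm.div
  obtain ⟨Cbk, hbk⟩ := hbk θ h0 h1 mR (by omega)
  set X : ℝ := (1 / Real.cos θ) ^ E.card with hX
  have hX0 : 0 ≤ X := by
    rw [hX]
    have : 0 < Real.cos θ := by linarith
    positivity
  -- the large box
  obtain ⟨R, hR⟩ : ∃ R : ℕ, 12 * (|Cbk| * (E1 * X + 1)) + (mR + 3 + n') ≤ (R : ℝ) := exists_nat_ge _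
  have hRpos : (0 : ℝ) < R := by
    have h2 : 0 ≤ 12 * (|Cbk| * (E1 * X + 1)) := by positivity
    have h3 : (0 : ℝ) < mR := by
      have : 0 < mR := by omega
      exact_mod_cast this
    have h4 : (0 : ℝ) < n' := by
      have : 0 < n' := by omega
      exact_mod_cast this
    linarith
  have hRm : mR + 3 ≤ (R : ℤ) ∧ n' ≤ (R : ℤ) := by
    have h2 : 0 ≤ 12 * (|Cbk| * (E1 * X + 1)) := by positivity
    have h3 : (0 : ℝ) < mR := by
      have : 0 < mR := by omega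
      exact_mod_cast this
    have h4 : (0 : ℝ) < n' := by
      have : 0 < n' := by omega
      exact_mod_cast this
    constructor
    · have : ((mR + 3 : ℤ) : ℝ) ≤ ((R : ℤ) : ℝ) := by push_cast; linarith
      exact_mod_cast this
    · have : ((n' : ℤ) : ℝ) ≤ ((R : ℤ) : ℝ) := by push_cast; linarith
      exact_mod_cast this
  have hbkR : (E1 * X + 1) * (Cbk / R) ≤ 1 / 12 := by
    have h2 : Cbk ≤ |Cbk| := le_abs_self _
    have h3 : 0 ≤ E1 * X + 1 := by positivity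
    have h4 : (0 : ℝ) < mR := by
      have : 0 < mR := by omega
      exact_mod_cast this
    have h5 : (0 : ℝ) < n' := by
      have : 0 < n' := by omega
      exact_mod_cast this
    rw [mul_div_assoc', div_le_iff₀ hRpos]
    have h6 : (E1 * X + 1) * Cbk ≤ (E1 * X + 1) * |Cbk| := mul_le_mul_of_nonneg_left h2 h3
    nlinarith
  -- the torus
  obtain ⟨l, hl, hlR⟩ := (hGE.and (eventually_ge_atTop (4 * R + 16))).exists
  rw [eventually_atTop] at hl
  obtain ⟨M0, hM0⟩ := hl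
  set M : ℕ := 2 * (M0 + 4 * R + 16) + 1 with hMdef
  have hGM := hM0 M (by omega)
  have hMe : Even (M + 1) := ⟨M0 + 4 * R + 16 + 1, by omega⟩
  have hLe : Even (2 * (l + 1)) := ⟨l + 1, by ring⟩
  have hM1 : 4 * (R : ℤ) + 16 ≤ ((M + 1 : ℕ) : ℤ) := by push_cast; omega
  have hL1 : 4 * (R : ℤ) + 16 ≤ ((2 * (l + 1) : ℕ) : ℤ) := by push_cast; omega
  have hR0 : (0 : ℤ) ≤ R := Int.natCast_nonneg _
  have hbkT := hbk R hRm.1 (M + 1) (2 * (l + 1)) hMe hLe (by omega) (by omega)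
  have hq1 := hcov θ h0 h1 r g hSc J R (M + 1) (2 * (l + 1)) (by omega) hMe hLe (by omega)
    (by omega)
  have hq2 := hcov θ h0 h1 r g hSc (J + k) R (M + 1) (2 * (l + 1)) (by omega) hMe hLe (by omega)
    (by omega)
  rw [← hn] at hq1
  rw [← hn'] at hq2
  have key := nosep h0 h1 hp hCS hS hb0.le hbβ hn1 hnn hm hm' (mR := mR) (R := R) (by omega)
    hRm.1 hAdm hMe hLe (by omega) (by omega) hs0
  rw [← hE1, ← hX] at key
  -- assemble
  have hcast : ((R : ℤ) : ℝ) = (R : ℝ) := by push_cast; rfl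
  rw [hcast] at hbkT
  have hno : ET θ (M + 1) (2 * (l + 1)) (fun ω => if Sepa n n' R ω then 0 else 1) ≤ 1 / 3 :=
    arith hE1p hX0 hbkT hbkR hGM (by rw [← mul_assoc]; exact hk) hCv hq1 hq2 hcJ hcJk hC1C hC1' hs
      key
  have hfinal := arm_of_sep h0 h1 hp hd hrb hdu hn1 hnn (R := R) hMe hLe (by omega) (by omega) hno
  have e4 : (2 : ℤ) ^ (J + 2) = 4 * n := by rw [hn, pow_add]; ring
  rw [e4, ← hn']
  exact hfinal

end Vale.Agent.P167.K8
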