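import Vale.Agent.P167.K8.Defs
import Vale.Agent.P167.H259.Fin
import Vale.Agent.P167.H166.Arc

/-!
# P167, GQ8: classification of the loops for two charges
-/

namespace Vale.Agent.P167.K8

open Finset Filter Topology
open Vale.Agent.P167.H259 (abs_fst_le G_mem G_smul G_zero box_const inner_ins small_ins nm_sub_le
  chg_mem G_eq_sum G_chg_one nm_le_iff)
open Vale.Agent.P167.FK (Bq)

theorem nm_le_dm {ℓ : Finset Ed} {u v : ℤ × ℤ} (hu : u ∈ vs ℓ) (hv : v ∈ vs ℓ) :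
    (nm (u - v) : ℝ) ≤ dm ℓ := by
  unfold dm
  exact le_ciSup (f := fun p : (vs ℓ) × (vs ℓ) => (nm (p.1.1 - p.2.1) : ℝ))
    (Set.finite_range _).bddAbove (⟨u, hu⟩, ⟨v, hv⟩)

theorem one_le_dm {ω : Cfg} {ℓ : Finset Ed} (h : IsLoop ω ℓ) : 1 ≤ dm ℓ := by
  obtain ⟨e, he⟩ := h.nonempty
  have h1 := nm_le_dm (tlv_mem h he) (Finset.mem_image_of_mem hdv he)
  have h2 := tlv_adj e
  have h3 : (1 : ℤ) ≤ nm (tlv e - hdv e) := by
    simp only [nm, Prod.fst_sub, Prod.snd_sub]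
    rcases abs_cases ((tlv e).1 - (hdv e).1) with ⟨h4, _⟩ | ⟨h4, _⟩ <;>
      rcases abs_cases ((tlv e).2 - (hdv e).2) with ⟨h5, _⟩ | ⟨h5, _⟩ <;> omega
  have h4 : (1 : ℝ) ≤ (nm (tlv e - hdv e) : ℝ) := by exact_mod_cast h3
  linarith

theorem dm_ins {ω : Cfg} {ℓ : Finset Ed} (h : IsLoop ω ℓ) {u : ℤ × ℤ} (hu : u ∈ vs ℓ)
    {s : ℤ × ℤ} (hs : W ℓ s ≠ 0) : (nm (s - u) : ℝ) < dm ℓ + 1 :=
  small_ins s_out h (fun _ h1 _ h2 => (nm_le_dm h1 h2).trans_lt (lt_add_one _)) hu hs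

/-- The mass surrounded by a loop is at most the number of sites. -/
theorem G_le_dm {ω : Cfg} {ℓ : Finset Ed} (h : IsLoop ω ℓ) {Cm ρ : ℝ} {m : ℤ × ℤ → ℝ}
    (hρ : 0 < ρ) (hm : Chg Cm ρ m) : G m ℓ ≤ 25 * Cm * (dm ℓ / ρ) ^ 2 := by
  classical
  obtain ⟨e, he⟩ := h.nonempty
  have hu : hdv e ∈ vs ℓ := Finset.mem_image_of_mem hdv he
  set u := hdv e with hue
  set N : ℤ := ⌊dm ℓ⌋ + 1 with hN
  have h1 := one_le_dm h
  have hN1 : (N : ℝ) ≤ dm ℓ + 1 := by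
    rw [hN]; push_cast
    have := Int.floor_le (dm ℓ)
    linarith
  have hN0 : 0 ≤ N := by
    have : (0 : ℤ) ≤ ⌊dm ℓ⌋ := Int.floor_nonneg.2 (by linarith)
    omega
  set B : Finset (ℤ × ℤ) := Finset.Icc (u.1 - N) (u.1 + N) ×ˢ Finset.Icc (u.2 - N) (u.2 + N)
    with hB
  have hins : ∀ s, W ℓ s ≠ 0 → s ∈ B := by
    intro s hs
    have h2 := dm_ins h hu hs
    have h3 : nm (s - u) ≤ N := by
      have : (nm (s - u) : ℝ) < (N : ℝ) + 1 := by
        rw [hN]; push_cast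
        have := Int.lt_floor_add_one (dm ℓ)
        linarith
      have : nm (s - u) < N + 1 := by exact_mod_cast this
      omega
    rw [nm_le_iff] at h3
    simp only [Prod.fst_sub, Prod.snd_sub] at h3
    simp only [hB, Finset.mem_product, Finset.mem_Icc]
    omega
  have hCm : 0 ≤ Cm / ρ ^ 2 := le_trans (hm.nonneg 0) (hm.le 0)
  have hG : G m ℓ ≤ ∑ s ∈ B, Cm / ρ ^ 2 := by
    rw [G_eq_sum (B := H259.bx ⌊2 * ρ⌋) (chg_mem hm le_rfl), ← Finset.sum_filter]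
    calc ∑ s ∈ (H259.bx ⌊2 * ρ⌋).filter (fun s => W ℓ s ≠ 0), m s
        ≤ ∑ s ∈ (H259.bx ⌊2 * ρ⌋).filter (fun s => W ℓ s ≠ 0), Cm / ρ ^ 2 :=
          Finset.sum_le_sum fun s _ => hm.le s
      _ ≤ ∑ s ∈ B, Cm / ρ ^ 2 := by
          refine Finset.sum_le_sum_of_subset_of_nonneg ?_ fun _ _ _ => hCm
          intro s hs
          exact hins s (Finset.mem_filter.1 hs).2
  refine hG.trans ?_
  rw [Finset.sum_const, nsmul_eq_mul]
  have hcard : (B.card : ℝ) ≤ (5 * dm ℓ) ^ 2 := by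
    have e1 : B.card = (2 * N + 1).toNat * (2 * N + 1).toNat := by
      rw [hB, Finset.card_product, Int.card_Icc, Int.card_Icc]
      congr 2 <;> congr 1 <;> ring
    have e2 : ((2 * N + 1).toNat : ℝ) = 2 * N + 1 := by
      have h6 : (((2 * N + 1).toNat : ℕ) : ℤ) = 2 * N + 1 := Int.toNat_of_nonneg (by omega)
      calc ((2 * N + 1).toNat : ℝ) = ((((2 * N + 1).toNat : ℕ) : ℤ) : ℝ) := (Int.cast_natCast _).symm
        _ = ((2 * N + 1 : ℤ) : ℝ) := by rw [h6]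
        _ = 2 * N + 1 := by push_cast; ring
    rw [e1]
    push_cast
    rw [e2]
    have h5 : (0 : ℝ) ≤ 2 * N + 1 := by
      have : (0 : ℝ) ≤ N := by exact_mod_cast hN0
      linarith
    nlinarith
  calc (B.card : ℝ) * (Cm / ρ ^ 2) ≤ (5 * dm ℓ) ^ 2 * (Cm / ρ ^ 2) :=
        mul_le_mul_of_nonneg_right hcard hCm
    _ = 25 * Cm * (dm ℓ / ρ) ^ 2 := by field_simp; ring

/-- A loop of the annulus which surrounds the origin. -/
def NT (n n' : ℤ) (ℓ : Finset Ed) : Prop :=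
  (∀ v ∈ vs ℓ, 8 * n < nm v ∧ 8 * nm v < n') ∧ W ℓ 0 ≠ 0

theorem sq_le_of {x C y : ℝ} (h0 : 0 ≤ x) (h1 : x ≤ 1) (_hy : 0 ≤ y) (h2 : x ≤ 25 * C * y ^ 2)
    (_hC : 0 ≤ C) : x ^ 2 ≤ (65536 + 625 * C ^ 2) * min 1 y ^ 4 := by
  rcases le_total 1 y with h | h
  · rw [min_eq_left h]
    nlinarith [sq_nonneg C]
  · rw [min_eq_right h]
    have h3 : x ^ 2 ≤ (25 * C * y ^ 2) ^ 2 := pow_le_pow_left₀ h0 h2 2
    have h4 : (25 * C * y ^ 2) ^ 2 = 625 * C ^ 2 * y ^ 4 := by ring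
    have h5 : 0 ≤ 65536 * y ^ 4 := by positivity
    nlinarith

open Classical in
theorem cls_one {ω : Cfg} {ℓ : Finset Ed} (h : IsLoop ω ℓ) {Cm : ℝ} {n n' : ℤ}
    {m m' : ℤ × ℤ → ℝ} (hn : 1 ≤ n) (hnn : 256 * n ≤ n') (hm : Chg Cm n m) (hm' : Chg Cm n' m')
    (hno : ¬ NT n n' ℓ) :
    (G m ℓ - G m' ℓ) ^ 2 ≤ (65536 + 625 * Cm ^ 2) *
      ((if ∃ v ∈ vs ℓ, nm v ≤ 8 * n then min 1 (dm ℓ / n) ^ 4 else 0) +
        (if ∃ v ∈ vs ℓ, nm v ≤ 8 * n' then min 1 (dm ℓ / n') ^ 4 else 0)) := by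
  have hnR : (1 : ℝ) ≤ n := by exact_mod_cast hn
  have hnnR : 256 * (n : ℝ) ≤ n' := by exact_mod_cast hnn
  have hCm0 : 0 ≤ Cm := by
    have h1 := le_trans (hm.nonneg 0) (hm.le 0)
    have h2 : (0 : ℝ) < (n : ℝ) ^ 2 := by positivity
    rcases le_or_gt 0 Cm with h3 | h3
    · exact h3
    · exact absurd h1 (not_le.2 (div_neg_of_neg_of_pos h3 h2))
  have h0 := G_mem hm ℓ
  have h0' := G_mem hm' ℓ
  have h1 := one_le_dm h
  have hd0 : 0 ≤ dm ℓ / n := by positivity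
  have hd0' : 0 ≤ dm ℓ / n' := div_nonneg (by linarith) (by linarith)
  have hC : 0 ≤ 65536 + 625 * Cm ^ 2 := by positivity
  have hq : 0 ≤ min 1 (dm ℓ / n) ^ 4 := by positivity
  have hq' : 0 ≤ min 1 (dm ℓ / n') ^ 4 := by positivity
  have hsq : (G m ℓ - G m' ℓ) ^ 2 ≤ 1 := by
    have a1 := h0.1
    have a2 := h0.2
    have a3 := h0'.1
    have a4 := h0'.2
    nlinarith
  have e1 : 0 ≤ (if ∃ v ∈ vs ℓ, nm v ≤ 8 * n then min 1 (dm ℓ / (n : ℝ)) ^ 4 else 0) := by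
    split_ifs
    · exact hq
    · exact le_rfl
  have e1' : 0 ≤ (if ∃ v ∈ vs ℓ, nm v ≤ 8 * n' then min 1 (dm ℓ / (n' : ℝ)) ^ 4 else 0) := by
    split_ifs
    · exact hq'
    · exact le_rfl
  by_cases hA' : ∃ v ∈ vs ℓ, nm v ≤ 8 * n'
  swap
  · -- outside of everything
    push Not at hA'
    have hR : ∀ v ∈ vs ℓ, ((8 * n' : ℤ) : ℝ) < (nm v : ℝ) := fun v hv => by exact_mod_cast hA' v hv
    have g1 : ∀ (ρ : ℝ) (m₀ : ℤ × ℤ → ℝ), Chg Cm ρ m₀ → ρ ≤ n' →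
        G m₀ ℓ = if W ℓ 0 ≠ 0 then 1 else 0 := by
      intro ρ m₀ hm₀ hρ
      have h2 : ∀ s, m₀ s ≠ 0 → W ℓ s = W ℓ 0 := fun s hs =>
        box_const s_nx s_jump h hR (by
          have := (hm₀.supp s hs).2
          push_cast
          linarith)
      split_ifs with h3
      · exact G_chg_one hm₀ fun s hs => by rw [h2 s hs]; exact h3
      · push Not at h3
        exact G_zero fun s hs => by rw [h2 s hs, h3]
    rw [g1 _ m hm (by linarith), g1 _ m' hm' le_rfl, sub_self]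
    have : (0 : ℝ) ^ 2 = 0 := by norm_num
    rw [this]
    positivity
  rcases le_or_gt ((n' : ℝ) / 16) (dm ℓ) with hd | hd
  · -- a large loop near the outer charge
    rw [if_pos hA']
    have h2 : (1 : ℝ) / 16 ≤ min 1 (dm ℓ / n') := by
      refine le_min (by norm_num) ?_
      rw [div_le_div_iff₀ (by norm_num) (by linarith)]
      linarith
    have h3 : ((1 : ℝ) / 16) ^ 4 ≤ min 1 (dm ℓ / n') ^ 4 := pow_le_pow_left₀ (by norm_num) h2 4
    have h4 : (1 : ℝ) ≤ 65536 * min 1 (dm ℓ / n') ^ 4 := by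
      have : ((1 : ℝ) / 16) ^ 4 = 1 / 65536 := by norm_num
      rw [this] at h3
      linarith
    have h5 : 0 ≤ 625 * Cm ^ 2 * min 1 (dm ℓ / (n' : ℝ)) ^ 4 := by positivity
    calc (G m ℓ - G m' ℓ) ^ 2 ≤ 1 := hsq
      _ ≤ (65536 + 625 * Cm ^ 2) * min 1 (dm ℓ / n') ^ 4 := by linarith
      _ ≤ _ := mul_le_mul_of_nonneg_left (by linarith) hC
  · by_cases hA : ∃ v ∈ vs ℓ, nm v ≤ 8 * n
    · -- near the inner charge
      obtain ⟨v0, hv0, hv0'⟩ := hA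
      have hR : ∀ v ∈ vs ℓ, (nm v : ℝ) < (n' : ℝ) := by
        intro v hv
        have h2 := nm_le_dm hv hv0
        have h3 : (nm v : ℝ) ≤ nm v0 + nm (v - v0) := by exact_mod_cast nm_sub_le v v0
        have h4 : (nm v0 : ℝ) ≤ 8 * n := by exact_mod_cast hv0'
        linarith
      have hz : G m' ℓ = 0 := by
        apply G_zero
        intro s hs
        by_contra hW
        have h2 := inner_ins s_out h hR hW
        have h3 := (hm'.supp s hs).1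
        linarith
      rw [hz, sub_zero, if_pos ⟨v0, hv0, hv0'⟩]
      have h2 := sq_le_of h0.1 h0.2 hd0 (G_le_dm h (by linarith) hm) hCm0
      exact h2.trans (mul_le_mul_of_nonneg_left (by linarith) hC)
    · push Not at hA
      have hR : ∀ v ∈ vs ℓ, ((8 * n : ℤ) : ℝ) < (nm v : ℝ) := fun v hv => by exact_mod_cast hA v hv
      have h2 : ∀ s, m s ≠ 0 → W ℓ s = W ℓ 0 := fun s hs =>
        box_const s_nx s_jump h hR (by
          have := (hm.supp s hs).2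
          push_cast
          linarith)
      by_cases hW : W ℓ 0 = 0
      · have hz : G m ℓ = 0 := G_zero fun s hs => by rw [h2 s hs, hW]
        rw [hz, zero_sub, neg_sq, if_pos hA']
        have h3 := sq_le_of h0'.1 h0'.2 hd0' (G_le_dm h (by linarith) hm') hCm0
        exact h3.trans (mul_le_mul_of_nonneg_left (by linarith) hC)
      · exfalso
        apply hno
        refine ⟨fun v hv => ⟨hA v hv, ?_⟩, hW⟩
        have h3 := dm_ins h hv hW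
        have h4 : nm (0 - v) = nm v := by
          unfold nm
          simp
        rw [h4] at h3
        have h5 : 8 * (nm v : ℝ) < n' := by linarith
        exact_mod_cast h5

/-- Without a loop separating the charges the sum of the squares is small. -/
theorem sum_sq_le {ω : Cfg} {R : ℤ} {Cm : ℝ} {n n' : ℤ} {m m' : ℤ × ℤ → ℝ} {b : ℝ} (hn : 1 ≤ n)
    (hnn : 256 * n ≤ n') (hm : Chg Cm n m) (hm' : Chg Cm n' m')
    (hno : ∀ ℓ ∈ Lin R ω, ¬ NT n n' ℓ) (hfin : (Lin R ω).Finite) :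
    ∑ᶠ ℓ ∈ Lin R ω, G (fun s => b * (m s - m' s)) ℓ ^ 2 ≤
      b ^ 2 * ((65536 + 625 * Cm ^ 2) * (qs n R ω + qs n' R ω)) := by
  classical
  have hG : ∀ ℓ, G (fun s => b * (m s - m' s)) ℓ = b * (G m ℓ - G m' ℓ) := by
    intro ℓ
    have hB : ∀ s, m s ≠ 0 → s ∈ H259.bx ⌊(2 : ℝ) * n'⌋ := chg_mem hm (by
      have : (n : ℝ) ≤ n' := by exact_mod_cast (by linarith : n ≤ n')
      linarith)
    have hB' : ∀ s, m' s ≠ 0 → s ∈ H259.bx ⌊(2 : ℝ) * n'⌋ := chg_mem hm' le_rfl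
    have hB2 : ∀ s, b * (m s - m' s) ≠ 0 → s ∈ H259.bx ⌊(2 : ℝ) * n'⌋ := by
      intro s hs
      by_cases h1 : m s = 0
      · apply hB'
        intro h2
        rw [h1, h2] at hs
        simp at hs
      · exact hB s h1
    rw [G_eq_sum hB2, G_eq_sum hB, G_eq_sum hB', ← Finset.sum_sub_distrib, Finset.mul_sum]
    apply Finset.sum_congr rfl
    intro s _
    split_ifs <;> ring
  have hq : ∀ N : ℤ, qs N R ω = ∑ ℓ ∈ hfin.toFinset,
      (if ∃ v ∈ vs ℓ, nm v ≤ 8 * N then min 1 (dm ℓ / (N : ℝ)) ^ 4 else 0) := by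
    intro N
    unfold qs
    rw [← Finset.sum_filter, ← finsum_mem_coe_finset]
    apply finsum_mem_congr
    · ext ℓ
      simp
    · intro _ _; rfl
  rw [← hfin.coe_toFinset, finsum_mem_coe_finset, hq, hq,
    ← Finset.sum_add_distrib, Finset.mul_sum, Finset.mul_sum]
  refine Finset.sum_le_sum fun ℓ hℓ => ?_
  rw [Set.Finite.mem_toFinset] at hℓ
  rw [hG, mul_pow]
  exact mul_le_mul_of_nonneg_left (cls_one hℓ.1 hn hnn hm hm' (hno ℓ hℓ)) (sq_nonneg b)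

end Vale.Agent.P167.K8
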