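import Vale.Agent.P167.K8.Lin
import Vale.Agent.P167.K8.Cls

/-!
# P167, GQ8: a counterclockwise loop is a loop of the inner clusters and blocks the dual arms
-/

namespace Vale.Agent.P167.K8

open Finset Filter Topology
open Vale.Agent.P145.FB (PStep PConn)
open Vale.Agent.P167.FK Vale.Agent.P167.FKA
open Vale.Agent.P167.H259 (f_markov f_fkg f_comp f_comp2 box_const inner_ins)
open Relation

/-- Comparison of free domains. -/
theorem ex_mono_dom {Q : ℝ} (hQ : 1 ≤ Q) {D D' : Finset (ℤ × ℤ)} (hD : D ⊆ D') {F : Cfg → ℝ}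
    (hF : IncF F) : Ex Q D eta0 F ≤ Ex Q D' eta0 F := by
  have hQ0 : 0 < Q := by linarith
  rw [f_markov Q D D' eta0 F hQ0 hD f_good.2.1, ← Ex_const (Q := Q) (D := D') (η := eta0) hQ0
    (Ex Q D eta0 F)]
  refine Ex_mono hQ0 fun S _ => ?_
  exact f_comp Q D _ _ F hQ f_good.2.1 (f_good.1 _ _ _ f_good.2.1) (fun v hv => by simp [eta0] at hv)
    hF

theorem dec_armD (x : ℤ × ℤ) (r R : ℤ) : DecS {ω | ArmDx x r R ω} := by
  rintro ω ω' h ⟨u, v, h1, h2, h3, h4⟩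
  have hsub : (op ω')ᶜ ⊆ (op ω)ᶜ := fun w hw hw' => hw (h w hw')
  exact ⟨u, v, h1, h2, h3, h4.mono hsub (le_refl _)⟩

/-- Indicator of the absence of a dual arm. -/
noncomputable def noD (r R : ℤ) (ω : Cfg) : ℝ := 1 - {ω | ArmDx 0 r R ω}.indicator 1 ω

theorem incF_noD (r R : ℤ) : IncF (noD r R) := by
  intro ω ω' h
  have := DecS.incF (dec_armD 0 r R) ω ω' h
  unfold noD
  linarith

theorem noD_nonneg (r R : ℤ) (ω : Cfg) : 0 ≤ noD r R ω := by
  have := ind_le_one {ω | ArmDx 0 r R ω} ω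
  unfold noD
  linarith

/-- There is a counterclockwise loop. -/
def Ccw (n n' : ℤ) (ω : Cfg) : Prop :=
  ∃ ℓ, IsLoop ω ℓ ∧ W ℓ 0 = 1 ∧ ∀ v ∈ vs ℓ, 8 * n - 1 < nm v ∧ 8 * nm v < n' + 8

theorem ccw_values {ω : Cfg} {ℓ : Finset Ed} (h : IsLoop ω ℓ) (h1 : W ℓ 0 = 1) (s : ℤ × ℤ) :
    W ℓ s = 0 ∨ W ℓ s = 1 := by
  rcases (s_sign ω ℓ h).1 with h2 | h2
  · exact h2 s
  · exfalso
    rcases h2 0 with h3 | h3 <;> rw [h1] at h3 <;> omega

theorem ccw_ls {ω : Cfg} {ℓ : Finset Ed} (h : IsLoop ω ℓ) (h1 : W ℓ 0 = 1) {e : Ed} (he : e ∈ ℓ) :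
    W ℓ (ls e) = 1 := by
  have h2 := s_jump ω ℓ h e
  rw [if_pos he] at h2
  rcases ccw_values h h1 (ls e) with h3 | h3
  · rcases ccw_values h h1 (rs e) with h4 | h4 <;> omega
  · exact h3

/-- A counterclockwise loop of the box is a loop of the inner clusters. -/
theorem ccw_fin {ω : Cfg} {ℓ : Finset Ed} (h : IsLoop ω ℓ) (h1 : W ℓ 0 = 1) {R : ℤ}
    (hR : vs ℓ ⊆ Bq 0 R) : IsLoop (fin (Bq 0 R) ω) ℓ := by
  classical
  have hinn : ∀ e ∈ ℓ, Inn (Bq 0 R) ω (ls e) := by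
    intro e he t ht v hv
    by_contra hvB
    have hc : Cor v t := by
      rcases hv with hv | hv
      · rw [← hv]; exact (cor_pa v).1
      · rw [← hv]; exact (cor_pb v).1
    have h2 := W_zero (ω := ω) (ℓ := ℓ) (R := R) ⟨h, hR⟩ hc hvB
    have h3 := W_PC h (even_ls e) ht
    rw [ccw_ls h h1 he, h2] at h3
    omega
  refine s_loc ω _ ℓ h fun v hv => ?_
  have hvB := hR hv
  unfold vs at hv
  rw [Finset.mem_image] at hv
  obtain ⟨e, he, rfl⟩ := hv
  cases hb : ω (hdv e) with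
  | false =>
    symm
    by_contra hn
    rw [Bool.not_eq_false] at hn
    have := fin_le hn
    rw [hb] at this
    exact absurd this (by simp)
  | true =>
    symm
    unfold fin
    rw [decide_eq_true_iff]
    refine ⟨hvB, hb, ?_⟩
    have h2 := hinn e he
    rcases FK.eq_of_hdv (v := hdv e) rfl with h3 | h3
    · have h4 : ls e = FK.pa (hdv e) := by
        conv_lhs => rw [h3]
        exact FK.ls_ia _
      rwa [← h4]
    · have h4 : ls e = FK.pb (hdv e) := by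
        conv_lhs => rw [h3]
        exact FK.ls_ib _
      rw [h4] at h2
      exact h2.ofPC (PC_sym (ReflTransGen.single (FK.step_ab hb)))

/-- A loop blocks the dual arms. -/
theorem ccw_noD {ω : Cfg} {ℓ : Finset Ed} (h : IsLoop ω ℓ) (h1 : W ℓ 0 = 1) {n n' : ℤ}
    (hn : 1 ≤ n) (hnn : 256 * n ≤ n') (hv : ∀ v ∈ vs ℓ, 8 * n - 1 < nm v ∧ 8 * nm v < n' + 8) :
    noD (4 * n) n' ω = 1 := by
  unfold noD
  rw [Set.indicator_of_notMem, sub_zero]
  rintro ⟨u, v, h2, h3, h4, h5⟩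
  rw [sub_zero] at h3 h4
  have h6 : DC ω u v := rtg_of_pconn h5
  have h7 := W_DC h h2 h6
  have hR : ∀ v ∈ vs ℓ, ((8 * n - 1 : ℤ) : ℝ) < (nm v : ℝ) := fun v hv' => by
    exact_mod_cast (hv v hv').1
  have h8 : W ℓ u = W ℓ 0 := box_const s_nx s_jump h hR (by
    have : nm u ≤ 8 * n - 1 := by omega
    exact_mod_cast this)
  have hR' : ∀ v ∈ vs ℓ, (nm v : ℝ) < (n' : ℝ) := fun v hv' => by
    have := (hv v hv').2
    have h9 : nm v < n' := by omega
    exact_mod_cast h9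
  have h9 : W ℓ v = 0 := by
    by_contra hne
    have h10 := inner_ins s_out h hR' hne
    have h11 : nm v < n' := by exact_mod_cast h10
    omega
  rw [h8, h1, h9] at h7
  omega

theorem ccw_le {ω : Cfg} {n n' : ℤ} (hn : 1 ≤ n) (hnn : 256 * n ≤ n') (h : Ccw n n' ω) :
    noD (4 * n) n' (fin (Bq 0 n') ω) = 1 := by
  obtain ⟨ℓ, h1, h2, h3⟩ := h
  have hsub : vs ℓ ⊆ Bq 0 n' := by
    intro v hv
    have h4 := (h3 v hv).2
    have h5 := H259.abs_fst_le v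
    rw [mem_Bz0]
    omega
  exact ccw_noD (ccw_fin h1 h2 hsub) h2 hn hnn h3

/-- Duality on loops. -/
def DuLoop : Prop := ∀ (ω : Cfg) (ℓ : Finset Ed), IsLoop ω ℓ → ∃ ℓ', IsLoop (du ω) ℓ' ∧
  vs ℓ' = (vs ℓ).image FKA.sh ∧ ∀ s, W ℓ' (FKA.sh s) = - W ℓ s

/-- A separating loop is counterclockwise, or its dual is. -/
theorem nt_cases (hdu : DuLoop) {ω : Cfg} {n n' : ℤ} (hn : 1 ≤ n) {ℓ : Finset Ed}
    (h : IsLoop ω ℓ) (hl : NT n n' ℓ) : Ccw n n' ω ∨ Ccw n n' (du ω) := by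
  obtain ⟨h1, h2⟩ := hl
  have hsgn : W ℓ 0 = 1 ∨ W ℓ 0 = -1 := by
    rcases (s_sign ω ℓ h).1 with h3 | h3
    · exact Or.inl ((h3 0).resolve_left h2)
    · exact Or.inr ((h3 0).resolve_left h2)
  rcases hsgn with h3 | h3
  · left
    exact ⟨ℓ, h, h3, fun v hv => ⟨by have := (h1 v hv).1; omega, by have := (h1 v hv).2; omega⟩⟩
  · right
    obtain ⟨ℓ', g1, g2, g3⟩ := hdu ω ℓ h
    have hv : ∀ v ∈ vs ℓ', 8 * n - 1 < nm v ∧ 8 * nm v < n' + 8 := by
      intro v hv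
      rw [g2, Finset.mem_image] at hv
      obtain ⟨u, hu, rfl⟩ := hv
      obtain ⟨h4, h5⟩ := h1 u hu
      have h6 : nm (FKA.sh u) ≤ nm u + 1 := by
        have := nm_sub_le (a := FKA.sh u) (b := u) (x := 0) (by simp [FKA.sh])
        simpa using this
      have h7 : nm u ≤ nm (FKA.sh u) + 1 := by
        have := nm_sub_le (a := u) (b := FKA.sh u) (x := 0) (by simp [FKA.sh])
        simpa using this
      omega
    refine ⟨ℓ', g1, ?_, hv⟩
    have h4 := g3 0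
    rw [h3] at h4
    have hR : ∀ v ∈ vs ℓ', ((8 * n - 1 : ℤ) : ℝ) < (nm v : ℝ) := fun v hv' => by
      exact_mod_cast (hv v hv').1
    have h5 : W ℓ' (FKA.sh 0) = W ℓ' 0 := box_const s_nx s_jump g1 hR (by
      have : nm (FKA.sh 0) = 1 := by simp [FKA.sh, nm]
      rw [this]
      push_cast
      have : (1 : ℝ) ≤ n := by exact_mod_cast hn
      linarith)
    rw [h5] at h4
    linarith

end Vale.Agent.P167.K8
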