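import Vale.Agent.P167.K8.Lin
import Vale.Agent.P167.K8.Cls
import Vale.Agent.P167.H45.Cnt

/-!
# P167, GQ8: the weighted number of the inner loops
-/

namespace Vale.Agent.P167.K8

open Finset Filter Topology
open Vale.Agent.P167.H259 (abs_fst_le nm_sub_comm loop_nonempty nx_mem nm_le_iff)
open Vale.Agent.P167.H45 (LV LV_fin LV_ncard)
open Vale.Agent.P167.H685 (unR)
open Vale.Agent.P167.FK (Bq)

theorem ivt {f : ℕ → ℤ} (hf : ∀ n, |f (n + 1) - f n| ≤ 1) {a b : ℕ} {t : ℤ} (ha : f a ≤ t)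
    (hb : t ≤ f b) : ∃ c, f c = t := by
  by_contra hn
  push Not at hn
  have key : ∀ n, (f n < t ↔ f 0 < t) := by
    intro n
    induction n with
    | zero => rfl
    | succ n ih =>
      rw [← ih]
      have h1 := abs_le.1 (hf n)
      have h2 := hn n
      have h3 := hn (n + 1)
      omega
  have h1 := (key a).1 (lt_of_le_of_ne ha (hn a))
  have h2 := (key b).2 h1
  omega

/-- The distances from a square of the loop take all the values. -/
theorem loop_ivt {ω : Cfg} {ℓ : Finset Ed} (h : IsLoop ω ℓ) {u w : ℤ × ℤ} (hu : u ∈ vs ℓ)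
    (hw : w ∈ vs ℓ) {t : ℤ} (h0 : 0 ≤ t) (ht : t ≤ nm (w - u)) : ∃ v ∈ vs ℓ, nm (v - u) = t := by
  have hl := h
  obtain ⟨e, he⟩ := h
  unfold vs at hu hw
  rw [Finset.mem_image] at hu hw
  obtain ⟨eu, heu, rfl⟩ := hu
  obtain ⟨ew, hew, rfl⟩ := hw
  obtain ⟨a, ha⟩ := (he eu).1 heu
  obtain ⟨b, hb⟩ := (he ew).1 hew
  obtain ⟨c, hc⟩ := ivt (f := fun n => nm (hdv ((nx ω)^[n] e) - hdv eu)) (a := a) (b := b) (t := t)
    (fun n => by
      rw [Function.iterate_succ_apply']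
      set e' := (nx ω)^[n] e
      have h1 := tlv_adj (nx ω e')
      rw [H259.tlv_nx] at h1
      have h2 := nm_sub_le (a := hdv (nx ω e')) (b := hdv e') (x := hdv eu) (by
        rcases abs_cases ((hdv e').1 - (hdv (nx ω e')).1) with ⟨h4, _⟩ | ⟨h4, _⟩ <;>
        rcases abs_cases ((hdv e').2 - (hdv (nx ω e')).2) with ⟨h5, _⟩ | ⟨h5, _⟩ <;>
        constructor <;> rw [abs_le] <;> omega)
      have h3 := nm_sub_le (a := hdv e') (b := hdv (nx ω e')) (x := hdv eu) (by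
        rcases abs_cases ((hdv e').1 - (hdv (nx ω e')).1) with ⟨h4, _⟩ | ⟨h4, _⟩ <;>
        rcases abs_cases ((hdv e').2 - (hdv (nx ω e')).2) with ⟨h5, _⟩ | ⟨h5, _⟩ <;>
        constructor <;> rw [abs_le] <;> omega)
      rw [abs_le]
      constructor <;> linarith)
    (by
      simp only [ha, sub_self]
      simpa [nm] using h0)
    (by simpa only [hb] using ht)
  exact ⟨_, Finset.mem_image_of_mem hdv ((he _).2 ⟨c, rfl⟩), hc⟩

/-- Grid points. -/
def pt (h : ℤ) (x : ℤ × ℤ) : ℤ × ℤ := (h * x.1, h * x.2)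

/-- The cell of the grid. -/
def cel (h : ℤ) (v : ℤ × ℤ) : ℤ × ℤ := (v.1 / h, v.2 / h)

theorem near_cel {h : ℤ} (hh : 1 ≤ h) (v : ℤ × ℤ) : nm (v - pt h (cel h v)) ≤ h - 1 := by
  have h1 := Int.emod_nonneg v.1 (by omega : h ≠ 0)
  have h2 := Int.emod_lt_of_pos v.1 (by omega : 0 < h)
  have h3 := Int.emod_nonneg v.2 (by omega : h ≠ 0)
  have h4 := Int.emod_lt_of_pos v.2 (by omega : 0 < h)
  have h5 := Int.mul_ediv_add_emod v.1 h
  have h6 := Int.mul_ediv_add_emod v.2 h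
  rw [nm_le_iff]
  simp only [pt, cel, Prod.fst_sub, Prod.snd_sub]
  refine ⟨?_, ?_, ?_, ?_⟩ <;> linarith

theorem nm_tri (a b c : ℤ × ℤ) : nm (a - c) ≤ nm (a - b) + nm (b - c) := by
  have h := H259.nm_sub_le (a - c) (b - c)
  have e : a - c - (b - c) = a - b := by ring
  rw [e] at h
  linarith

/-- The loop is attached to the grid point. -/
def Att (h D : ℤ) (x : ℤ × ℤ) (ℓ : Finset Ed) : Prop :=
  (∃ v ∈ vs ℓ, nm (v - x) ≤ h - 1) ∧ ∃ w ∈ vs ℓ, D ≤ nm (w - x)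

theorem far_pair {ω : Cfg} {ℓ : Finset Ed} (h : IsLoop ω ℓ) {D : ℤ} (hD : (D : ℝ) ≤ dm ℓ) :
    ∃ p ∈ vs ℓ, ∃ q ∈ vs ℓ, D ≤ nm (p - q) := by
  by_contra hn
  push Not at hn
  obtain ⟨v, hv⟩ := H259.vs_nonempty h
  have : Nonempty (vs ℓ × vs ℓ) := ⟨(⟨v, hv⟩, ⟨v, hv⟩)⟩
  have h1 : dm ℓ ≤ (D : ℝ) - 1 := by
    unfold dm
    refine ciSup_le fun p => ?_
    have h2 := hn p.1.1 p.1.2 p.2.1 p.2.2
    have h3 : nm (p.1.1 - p.2.1) ≤ D - 1 := by omega
    exact_mod_cast h3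
  linarith

theorem far_from {ω : Cfg} {ℓ : Finset Ed} (h : IsLoop ω ℓ) {D : ℤ} (hD : ((2 * D : ℤ) : ℝ) ≤ dm ℓ)
    (x : ℤ × ℤ) : ∃ w ∈ vs ℓ, D ≤ nm (w - x) := by
  obtain ⟨p, hp, q, hq, h1⟩ := far_pair h hD
  have h2 := nm_tri p x q
  rw [nm_sub_comm x q] at h2
  rcases le_or_gt D (nm (p - x)) with h3 | h3
  · exact ⟨p, hp, h3⟩
  · exact ⟨q, hq, by omega⟩

open Classical in
/-- A large loop is attached to many grid points. -/
theorem many {ω : Cfg} {ℓ : Finset Ed} (h : IsLoop ω ℓ) {r d n K : ℤ} (hr : 1 ≤ r) (hrd : r ≤ d)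
    (hdn : d ≤ n) (hK : 12 * n ≤ r * K) (hdm : ((8 * d : ℤ) : ℝ) ≤ dm ℓ)
    (hv : ∃ v ∈ vs ℓ, nm v ≤ 8 * n) :
    d ≤ r * (((Finset.Icc (-K) K ×ˢ Finset.Icc (-K) K).filter
      (fun x => Att r (4 * d) (pt r x) ℓ)).card : ℤ) := by
  obtain ⟨v0, hv0, hv0'⟩ := hv
  have hd : 1 ≤ d := by omega
  obtain ⟨w, hw, hw'⟩ := far_from h (D := 4 * d) (by rw [← mul_assoc]; exact_mod_cast hdm) v0
  set T : ℕ := (4 * d / (3 * r)).toNat with hT
  have hT0 : 0 ≤ 4 * d / (3 * r) := Int.ediv_nonneg (by omega) (by omega)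
  have hTc : (T : ℤ) = 4 * d / (3 * r) := Int.toNat_of_nonneg hT0
  have hT1 : 3 * r * (4 * d / (3 * r)) ≤ 4 * d := Int.mul_ediv_self_le (by omega)
  have hT2 : 4 * d < 3 * r * (4 * d / (3 * r)) + 3 * r := by
    have h1 := Int.mul_ediv_add_emod (4 * d) (3 * r)
    have h2 := Int.emod_lt_of_pos (4 * d) (by omega : 0 < 3 * r)
    linarith
  have hex : ∀ t : ℕ, ∃ v, t ≤ T → v ∈ vs ℓ ∧ nm (v - v0) = 3 * r * t := by
    intro t
    by_cases ht : t ≤ T
    · obtain ⟨v, hv, hv'⟩ := loop_ivt h hv0 hw (t := 3 * r * t) (by positivity) (by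
        have : (t : ℤ) ≤ T := by exact_mod_cast ht
        rw [hTc] at this
        have h3 : 3 * r * (t : ℤ) ≤ 3 * r * (4 * d / (3 * r)) :=
          mul_le_mul_of_nonneg_left this (by omega)
        linarith)
      exact ⟨v, fun _ => ⟨hv, hv'⟩⟩
    · exact ⟨0, fun h' => absurd h' ht⟩
  choose v hv using hex
  have hinj : Set.InjOn (fun t : ℕ => cel r (v t)) (Finset.range (T + 1) : Set ℕ) := by
    intro s hs t ht hst
    simp only [Finset.coe_range, Set.mem_Iio] at hs ht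
    obtain ⟨_, h1⟩ := hv s (by omega)
    obtain ⟨_, h2⟩ := hv t (by omega)
    simp only at hst
    have h3 := near_cel hr (v s)
    have h4 := near_cel hr (v t)
    rw [hst] at h3
    have h5 := nm_tri (v s) (pt r (cel r (v t))) (v t)
    rw [nm_sub_comm (pt r (cel r (v t))) (v t)] at h5
    have h6 := nm_tri (v s) (v t) v0
    have h7 := nm_tri (v t) (v s) v0
    rw [nm_sub_comm (v t) (v s)] at h7
    rw [h1, h2] at h6 h7
    by_contra hne
    rcases lt_or_gt_of_ne hne with h8 | h8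
    · have h9 : (s : ℤ) + 1 ≤ t := by exact_mod_cast h8
      have h10 : 3 * r * ((s : ℤ) + 1) ≤ 3 * r * t := mul_le_mul_of_nonneg_left h9 (by omega)
      linarith
    · have h9 : (t : ℤ) + 1 ≤ s := by exact_mod_cast h8
      have h10 : 3 * r * ((t : ℤ) + 1) ≤ 3 * r * s := mul_le_mul_of_nonneg_left h9 (by omega)
      linarith
  have hcard : T + 1 ≤ ((Finset.Icc (-K) K ×ˢ Finset.Icc (-K) K).filter
      (fun x => Att r (4 * d) (pt r x) ℓ)).card := by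
    calc T + 1 = (Finset.range (T + 1)).card := (Finset.card_range _).symm
      _ = ((Finset.range (T + 1)).image (fun t => cel r (v t))).card :=
          (Finset.card_image_of_injOn hinj).symm
      _ ≤ _ := by
          refine Finset.card_le_card ?_
          intro x hx
          rw [Finset.mem_image] at hx
          obtain ⟨t, ht, rfl⟩ := hx
          rw [Finset.mem_range] at ht
          obtain ⟨h1, h2⟩ := hv t (by omega)
          have h3 : nm (v t) ≤ 12 * n := by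
            have h4 := H259.nm_sub_le (v t) v0
            have h5 : (t : ℤ) ≤ T := by exact_mod_cast (by omega : t ≤ T)
            rw [hTc] at h5
            have h6 : 3 * r * (t : ℤ) ≤ 3 * r * (4 * d / (3 * r)) :=
              mul_le_mul_of_nonneg_left h5 (by omega)
            linarith
          have h4 := abs_fst_le (v t)
          rw [Finset.mem_filter, Finset.mem_product, Finset.mem_Icc, Finset.mem_Icc]
          refine ⟨⟨⟨?_, ?_⟩, ?_, ?_⟩, ⟨v t, h1, near_cel hr (v t)⟩, far_from h (by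
            rw [← mul_assoc]; exact_mod_cast hdm) _⟩
          · exact Int.le_ediv_of_mul_le (by omega) (by linarith)
          · exact Int.ediv_le_of_le_mul (by omega) (by linarith)
          · exact Int.le_ediv_of_mul_le (by omega) (by linarith)
          · exact Int.ediv_le_of_le_mul (by omega) (by linarith)
  have h1 : ((T + 1 : ℕ) : ℤ) ≤ (((Finset.Icc (-K) K ×ˢ Finset.Icc (-K) K).filter
      (fun x => Att r (4 * d) (pt r x) ℓ)).card : ℤ) := by exact_mod_cast hcard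
  have h2 : r * ((T + 1 : ℕ) : ℤ) ≤ r * _ := mul_le_mul_of_nonneg_left h1 (by omega)
  refine le_trans ?_ h2
  push_cast
  rw [hTc]
  nlinarith

open Classical in
/-- Number of the large inner loops near the origin. -/
noncomputable def NL (n d R : ℤ) (ω : Cfg) : ℕ :=
  ((Lin_finite R ω).toFinset.filter
    (fun ℓ => (∃ v ∈ vs ℓ, nm v ≤ 8 * n) ∧ ((8 * d : ℤ) : ℝ) ≤ dm ℓ)).card

/-- Number of the attached inner loops. -/
noncomputable def NA (R h D : ℤ) (x : ℤ × ℤ) (ω : Cfg) : ℕ :=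
  Set.ncard {ℓ | ℓ ∈ Lin R ω ∧ Att h D x ℓ}

theorem dbl {r d n K R : ℤ} (ω : Cfg) (hr : 1 ≤ r) (hrd : r ≤ d)
    (hdn : d ≤ n) (hK : 12 * n ≤ r * K) :
    (d : ℝ) * NL n d R ω ≤ r * ∑ x ∈ Finset.Icc (-K) K ×ˢ Finset.Icc (-K) K,
      (NA R r (4 * d) (pt r x) ω : ℝ) := by
  classical
  set S := (Lin_finite R ω).toFinset.filter
    (fun ℓ => (∃ v ∈ vs ℓ, nm v ≤ 8 * n) ∧ ((8 * d : ℤ) : ℝ) ≤ dm ℓ) with hS
  set X := Finset.Icc (-K) K ×ˢ Finset.Icc (-K) K with hX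
  have h1 : ∀ x, NA R r (4 * d) (pt r x) ω =
      ((Lin_finite R ω).toFinset.filter (fun ℓ => Att r (4 * d) (pt r x) ℓ)).card := by
    intro x
    unfold NA
    rw [← Set.ncard_coe_finset]
    congr 1
    ext ℓ
    simp
  have h2 : ∑ ℓ ∈ S, (d : ℤ) ≤ ∑ ℓ ∈ S, r * ((X.filter (fun x => Att r (4 * d) (pt r x) ℓ)).card : ℤ) := by
    refine Finset.sum_le_sum fun ℓ hℓ => ?_
    rw [hS, Finset.mem_filter, Set.Finite.mem_toFinset] at hℓ
    have h3 := many hℓ.1.1 hr hrd hdn hK hℓ.2.2 hℓ.2.1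
    convert h3 using 4
  have h4 : ∑ ℓ ∈ S, ((X.filter (fun x => Att r (4 * d) (pt r x) ℓ)).card : ℤ) ≤
      ∑ x ∈ X, (NA R r (4 * d) (pt r x) ω : ℤ) := by
    have e1 : ∀ ℓ, ((X.filter (fun x => Att r (4 * d) (pt r x) ℓ)).card : ℤ) =
        ∑ x ∈ X, if Att r (4 * d) (pt r x) ℓ then 1 else 0 := by
      intro ℓ
      rw [Finset.card_filter]
      push_cast
      rfl
    simp only [e1]
    rw [Finset.sum_comm]
    refine Finset.sum_le_sum fun x _ => ?_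
    rw [h1 x, Finset.card_filter]
    push_cast
    refine Finset.sum_le_sum_of_subset_of_nonneg (Finset.filter_subset _ _) fun _ _ _ => ?_
    split_ifs <;> norm_num
  rw [Finset.sum_const, nsmul_eq_mul, ← Finset.mul_sum] at h2
  have h5 := h2.trans (mul_le_mul_of_nonneg_left h4 (by omega : (0 : ℤ) ≤ r))
  have h6 : ((NL n d R ω : ℤ) * d : ℤ) ≤ r * ∑ x ∈ X, (NA R r (4 * d) (pt r x) ω : ℤ) := by
    unfold NL
    convert h5 using 4
  have h7 : (((NL n d R ω : ℤ) * d : ℤ) : ℝ) ≤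
      ((r * ∑ x ∈ X, (NA R r (4 * d) (pt r x) ω : ℤ) : ℤ) : ℝ) := by exact_mod_cast h6
  push_cast at h7
  rw [mul_comm]
  exact h7

section exp

variable {θ : ℝ} {M L : ℕ} [NeZero M] [NeZero L]

theorem ET_sum (hp : K_pos) (h0 : 0 ≤ θ) (h1 : θ < Real.pi / 2) {ι : Type*} (s : Finset ι)
    (F : ι → Cfg → ℝ) :
    ET θ M L (fun ω => ∑ i ∈ s, F i ω) = ∑ i ∈ s, ET θ M L (F i) := by
  classical
  induction s using Finset.induction_on with
  | empty => simp only [Finset.sum_empty]; exact ET_const hp h0 h1 0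
  | insert a s ha ih =>
    simp only [Finset.sum_insert ha]
    rw [ET_add, ih]

theorem ET_const_le (hp : K_pos) (h0 : 0 ≤ θ) (h1 : θ < Real.pi / 2) {F : Cfg → ℝ} {b : ℝ}
    (h : ∀ ρ : ZMod M × ZMod L → Bool, F (unR ρ) ≤ b) : ET θ M L F ≤ b :=
  (ET_mono hp h0 h1 (G := fun _ => b) h).trans_eq (ET_const hp h0 h1 b)

theorem card_grid {K : ℤ} (hK : 0 ≤ K) :
    (((Finset.Icc (-K) K ×ˢ Finset.Icc (-K) K : Finset (ℤ × ℤ)).card : ℕ) : ℝ) =
      (2 * K + 1) ^ 2 := by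
  rw [Finset.card_product, Int.card_Icc]
  have e2 : (((K + 1 - -K).toNat : ℕ) : ℝ) = 2 * K + 1 := by
    have h6 : (((K + 1 - -K).toNat : ℕ) : ℤ) = K + 1 - -K := Int.toNat_of_nonneg (by omega)
    calc (((K + 1 - -K).toNat : ℕ) : ℝ) = ((((K + 1 - -K).toNat : ℕ) : ℤ) : ℝ) :=
          (Int.cast_natCast _).symm
      _ = ((K + 1 - -K : ℤ) : ℝ) := by rw [h6]
      _ = 2 * K + 1 := by push_cast; ring
  push_cast
  rw [e2]
  ring

/-- Bound for the number of the attached loops. -/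
theorem NA_le (hp : K_pos) (hcnt : K_cnt) (h0 : 0 ≤ θ) (h1 : θ ≤ Real.pi / 3) {r d R : ℤ} {g : ℝ}
    (hr : 1 ≤ r) (hrd : r ≤ d) (hg : 0 < g) (hg1 : g ≤ 1)
    (harm : ArmF (2 * Real.cos θ) r (2 * r) g)
    (hR : 1 ≤ R) (hMe : Even M) (hLe : Even L) (hM : 2 * R + 16 ≤ M) (hL : 2 * R + 16 ≤ L) :
    ∃ h : ℤ, 1 ≤ h ∧ h ≤ r ∧ (r : ℝ) ≤ 6 * h ∧ ∀ x,
      ET θ M L (fun ω => (NA R h (4 * d) x ω : ℝ)) ≤ 4 / g := by
  have hlt := lt_half h1
  rcases le_or_gt 6 r with h6 | h6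
  · refine ⟨r - 3, by omega, by omega, ?_, fun x => ?_⟩
    · push_cast
      have : (6 : ℝ) ≤ r := by exact_mod_cast h6
      linarith
    · have h2 := hcnt θ h0 h1 r (2 * r) g hr (by omega) hg harm x R M L hR hMe hLe hM hL
      have h3 : (2 : ℝ) / g ≤ 4 / g := div_le_div_of_nonneg_right (by norm_num) hg.le
      refine (ET_mono hp h0 hlt fun ρ => ?_).trans (h2.trans h3)
      unfold NA
      have h4 : {ℓ | ℓ ∈ Lin R (unR ρ) ∧ Att (r - 3) (4 * d) x ℓ} ⊆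
          {ℓ | ℓ ∈ Lin R (unR ρ) ∧ (∃ v ∈ vs ℓ, nm (v - x) ≤ r - 3) ∧
            ∃ v ∈ vs ℓ, 2 * r + 3 ≤ nm (v - x)} := by
        rintro ℓ ⟨a, ⟨v, hv, hv'⟩, w, hw, hw'⟩
        exact ⟨a, ⟨v, hv, by omega⟩, w, hw, by omega⟩
      exact_mod_cast Set.ncard_le_ncard h4 ((Lin_finite R (unR ρ)).subset fun ℓ hℓ => hℓ.1)
  · refine ⟨1, le_rfl, hr, ?_, fun x => ?_⟩
    · have : (r : ℝ) < 6 := by exact_mod_cast h6
      push_cast
      linarith
    · have h3 : (4 : ℝ) ≤ 4 / g := by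
        rw [le_div_iff₀ hg]
        linarith
      refine (ET_const_le hp h0 hlt fun ρ => ?_).trans h3
      unfold NA
      have h4 : {ℓ | ℓ ∈ Lin R (unR ρ) ∧ Att 1 (4 * d) x ℓ} ⊆ LV {x} (unR ρ) := by
        rintro ℓ ⟨a, ⟨v, hv, hv'⟩, -⟩
        refine ⟨a.1, v, hv, ?_⟩
        rw [Finset.mem_singleton]
        have h5 := abs_fst_le (v - x)
        simp only [Prod.fst_sub, Prod.snd_sub] at h5
        ext <;> omega
      have h5 := (Set.ncard_le_ncard h4 (LV_fin s_two _ _)).trans (LV_ncard s_two _ _)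
      rw [Finset.card_singleton] at h5
      exact_mod_cast h5

/-- Expected number of the large inner loops near the origin. -/
theorem NL_le (hp : K_pos) (hcnt : K_cnt) (h0 : 0 ≤ θ) (h1 : θ ≤ Real.pi / 3) {r d n R : ℤ} {g : ℝ}
    (hr : 1 ≤ r) (hrd : r ≤ d) (hdn : d ≤ n) (hg : 0 < g) (hg1 : g ≤ 1)
    (harm : ArmF (2 * Real.cos θ) r (2 * r) g)
    (hR : 1 ≤ R) (hMe : Even M) (hLe : Even L) (hM : 2 * R + 16 ≤ M) (hL : 2 * R + 16 ≤ L) :
    ET θ M L (fun ω => (NL n d R ω : ℝ)) ≤ 20184 * n ^ 2 / (r * g * d) := by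
  have hlt := lt_half h1
  obtain ⟨h, hh1, hhr, hh6, hNA⟩ := NA_le (θ := θ) (M := M) (L := L) hp hcnt h0 h1 hr hrd hg hg1
    harm hR hMe hLe hM hL
  have hhR : (1 : ℝ) ≤ h := by exact_mod_cast hh1
  have hrR : (1 : ℝ) ≤ r := by exact_mod_cast hr
  have hdR : (1 : ℝ) ≤ d := by exact_mod_cast (by omega : 1 ≤ d)
  have hhn : (h : ℝ) ≤ n := by exact_mod_cast (by omega : h ≤ n)
  set K : ℤ := 12 * n / h + 1 with hK
  have hK0 : 0 ≤ K := by
    have : 0 ≤ 12 * n / h := Int.ediv_nonneg (by omega) (by omega)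
    omega
  have hK1 : 12 * n ≤ h * K := by
    have h2 := Int.mul_ediv_add_emod (12 * n) h
    have h3 := Int.emod_lt_of_pos (12 * n) (by omega : 0 < h)
    rw [hK, mul_add]
    linarith
  have hK2 : (h : ℝ) * K ≤ 12 * n + h := by
    have h2 : h * (12 * n / h) ≤ 12 * n := Int.mul_ediv_self_le (by omega)
    have h3 : h * K ≤ 12 * n + h := by rw [hK, mul_add]; linarith
    exact_mod_cast h3
  have h2 : ET θ M L (fun ω => (d : ℝ) * (NL n d R ω : ℝ)) ≤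
      ET θ M L (fun ω => (h : ℝ) * ∑ x ∈ Finset.Icc (-K) K ×ˢ Finset.Icc (-K) K,
        (NA R h (4 * d) (pt h x) ω : ℝ)) :=
    ET_mono hp h0 hlt fun ρ => dbl _ hh1 (by omega) hdn hK1
  rw [ET_mul_left, ET_mul_left, ET_sum hp h0 hlt] at h2
  have h3 : ∑ x ∈ Finset.Icc (-K) K ×ˢ Finset.Icc (-K) K,
      ET θ M L (fun ω => (NA R h (4 * d) (pt h x) ω : ℝ)) ≤ (2 * K + 1) ^ 2 * (4 / g) := by
    refine (Finset.sum_le_sum fun x _ => hNA (pt h x)).trans ?_
    rw [Finset.sum_const, nsmul_eq_mul, card_grid hK0]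
  have h4 : (h : ℝ) * ((2 * K + 1) ^ 2 * (4 / g)) ≤ 841 * n ^ 2 / h * (4 / g) := by
    rw [← mul_assoc]
    refine mul_le_mul_of_nonneg_right ?_ (by positivity)
    rw [le_div_iff₀ (by linarith)]
    have h5 : (h : ℝ) * (2 * K + 1) ≤ 29 * n := by nlinarith
    have h6 : 0 ≤ (h : ℝ) * (2 * K + 1) := by
      have : (0 : ℝ) ≤ K := by exact_mod_cast hK0
      positivity
    have h7 := pow_le_pow_left₀ h6 h5 2
    nlinarith
  have h7 : (d : ℝ) * ET θ M L (fun ω => (NL n d R ω : ℝ)) ≤ 841 * n ^ 2 / h * (4 / g) :=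
    h2.trans ((mul_le_mul_of_nonneg_left h3 (by linarith)).trans h4)
  have h8 : 841 * (n : ℝ) ^ 2 / h * (4 / g) ≤ 20184 * n ^ 2 / (r * g) := by
    rw [div_mul_div_comm, div_le_div_iff₀ (by positivity) (by positivity)]
    have h9 : 0 ≤ 3364 * (n : ℝ) ^ 2 * g := by positivity
    nlinarith [mul_le_mul_of_nonneg_left hh6 h9]
  rw [show 20184 * (n : ℝ) ^ 2 / (r * g * d) = (20184 * n ^ 2 / (r * g)) / d by
    rw [div_div], le_div_iff₀ (by linarith), mul_comm]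
  exact h7.trans h8

end exp

theorem weight_le {x : ℝ} (hx : 0 ≤ x) (J : ℕ) :
    min 1 (x / 2 ^ J) ^ 4 ≤ 65536 * ∑ i ∈ Finset.range (J + 1), (16 : ℝ) ^ i / 16 ^ J *
      (if 8 * (2 : ℝ) ^ i ≤ x then 1 else 0) + 4096 / 16 ^ J := by
  classical
  have h16 : ∀ i : ℕ, ((2 : ℝ) ^ i) ^ 4 = 16 ^ i := fun i => by
    rw [← pow_mul, mul_comm, pow_mul]; norm_num
  have hterm : ∀ i ∈ Finset.range (J + 1), 0 ≤ (16 : ℝ) ^ i / 16 ^ J *
      (if 8 * (2 : ℝ) ^ i ≤ x then 1 else 0) := fun i _ => by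
    split_ifs <;> positivity
  have hmin : 0 ≤ min 1 (x / 2 ^ J) := by positivity
  by_cases h0 : 8 * (2 : ℝ) ^ 0 ≤ x
  · have h1 : ∃ i, i ≤ J ∧ 8 * (2 : ℝ) ^ i ≤ x ∧ (i < J → x < 16 * (2 : ℝ) ^ i) := by
      refine ⟨Nat.findGreatest (fun i => 8 * (2 : ℝ) ^ i ≤ x) J, Nat.findGreatest_le _, ?_, ?_⟩
      · exact Nat.findGreatest_spec (P := fun i => 8 * (2 : ℝ) ^ i ≤ x) (Nat.zero_le J) h0
      · intro h
        have h2 := Nat.findGreatest_is_greatest (P := fun i => 8 * (2 : ℝ) ^ i ≤ x)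
          (Nat.lt_succ_self _) (by omega : _ ≤ J)
        rw [not_le, pow_succ] at h2
        linarith
    obtain ⟨i, hi, hi1, hi2⟩ := h1
    have h3 : (16 : ℝ) ^ i / 16 ^ J ≤ ∑ i ∈ Finset.range (J + 1), (16 : ℝ) ^ i / 16 ^ J *
      (if 8 * (2 : ℝ) ^ i ≤ x then 1 else 0) := by
      have := Finset.single_le_sum hterm (Finset.mem_range.2 (by omega : i < J + 1))
      rw [if_pos hi1, mul_one] at this
      exact this
    have h4 : min 1 (x / 2 ^ J) ^ 4 ≤ 65536 * ((16 : ℝ) ^ i / 16 ^ J) := by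
      rcases Nat.lt_or_eq_of_le hi with h5 | h5
      · have h6 := hi2 h5
        have h7 : min 1 (x / 2 ^ J) ≤ 16 * (2 : ℝ) ^ i / 2 ^ J :=
          (min_le_right _ _).trans (div_le_div_of_nonneg_right h6.le (by positivity))
        calc min 1 (x / 2 ^ J) ^ 4 ≤ (16 * (2 : ℝ) ^ i / 2 ^ J) ^ 4 := pow_le_pow_left₀ hmin h7 4
          _ = 65536 * ((16 : ℝ) ^ i / 16 ^ J) := by
              rw [div_pow, mul_pow, h16, h16]
              ring
      · rw [h5, div_self (by positivity)]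
        have h7 : min 1 (x / 2 ^ J) ^ 4 ≤ 1 ^ 4 := pow_le_pow_left₀ hmin (min_le_left _ _) 4
        linarith
    have h5 : (0 : ℝ) ≤ 4096 / 16 ^ J := by positivity
    linarith
  · rw [pow_zero, mul_one, not_le] at h0
    have h7 : min 1 (x / 2 ^ J) ≤ 8 / 2 ^ J :=
      (min_le_right _ _).trans (div_le_div_of_nonneg_right h0.le (by positivity))
    have h8 : min 1 (x / 2 ^ J) ^ 4 ≤ 4096 / 16 ^ J := by
      calc min 1 (x / 2 ^ J) ^ 4 ≤ (8 / 2 ^ J) ^ 4 := pow_le_pow_left₀ hmin h7 4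
        _ = 4096 / 16 ^ J := by
            rw [div_pow, h16]
            norm_num
    have := Finset.sum_nonneg hterm
    linarith

theorem qs_le (R : ℤ) (J : ℕ) (ω : Cfg) :
    qs (2 ^ J) R ω ≤ 65536 * ∑ i ∈ Finset.range (J + 1), (16 : ℝ) ^ i / 16 ^ J *
      (NL (2 ^ J) (2 ^ i) R ω : ℝ) + 4734976 * 4 ^ J / 16 ^ J := by
  classical
  set S := (Lin_finite R ω).toFinset.filter (fun ℓ => ∃ v ∈ vs ℓ, nm v ≤ 8 * 2 ^ J) with hS
  have hset : {ℓ | ℓ ∈ Lin R ω ∧ ∃ v ∈ vs ℓ, nm v ≤ 8 * 2 ^ J} = (S : Set (Finset Ed)) := by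
    ext ℓ
    simp [hS]
  have h1 : qs (2 ^ J) R ω = ∑ ℓ ∈ S, min 1 (dm ℓ / 2 ^ J) ^ 4 := by
    unfold qs
    rw [hset, finsum_mem_coe_finset]
    push_cast
    rfl
  rw [h1]
  have h2 : ∀ ℓ ∈ S, 0 ≤ dm ℓ := fun ℓ hℓ => by
    rw [hS, Finset.mem_filter, Set.Finite.mem_toFinset] at hℓ
    exact zero_le_one.trans (one_le_dm hℓ.1.1)
  refine (Finset.sum_le_sum fun ℓ hℓ => weight_le (h2 ℓ hℓ) J).trans ?_
  rw [Finset.sum_add_distrib, ← Finset.mul_sum, Finset.sum_comm]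
  refine add_le_add (mul_le_mul_of_nonneg_left ?_ (by norm_num)) ?_
  · refine Finset.sum_le_sum fun i _ => ?_
    rw [← Finset.mul_sum]
    refine mul_le_mul_of_nonneg_left ?_ (by positivity)
    rw [← Finset.sum_filter, Finset.sum_const, nsmul_eq_mul, mul_one]
    unfold NL
    rw [hS, Finset.filter_filter]
    have h3 : ∀ ℓ, ((8 * 2 ^ i : ℤ) : ℝ) ≤ dm ℓ ↔ 8 * (2 : ℝ) ^ i ≤ dm ℓ := fun ℓ => by
      push_cast; rfl
    simp only [h3]
    exact le_of_eq (by congr 2)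
  · rw [Finset.sum_const, nsmul_eq_mul]
    have h3 : S.card ≤ 4 * (H259.bx (8 * 2 ^ J)).card := by
      have h4 : (S : Set (Finset Ed)) ⊆ LV (H259.bx (8 * 2 ^ J)) ω := by
        rw [← hset]
        rintro ℓ ⟨a, v, hv, hv'⟩
        exact ⟨a.1, v, hv, H259.mem_bx.2 hv'⟩
      rw [← Set.ncard_coe_finset S]
      exact (Set.ncard_le_ncard h4 (LV_fin s_two _ _)).trans (LV_ncard s_two _ _)
    have h5 : ((H259.bx (8 * 2 ^ J)).card : ℝ) ≤ 289 * 4 ^ J := by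
      unfold H259.bx
      rw [card_grid (by positivity)]
      push_cast
      have h6 : (1 : ℝ) ≤ 2 ^ J := one_le_pow₀ (by norm_num)
      have h7 : (4 : ℝ) ^ J = (2 ^ J) ^ 2 := by rw [← pow_mul, mul_comm, pow_mul]; norm_num
      rw [h7]
      nlinarith
    have h6 : (S.card : ℝ) ≤ 1156 * 4 ^ J := by
      have : (S.card : ℝ) ≤ 4 * ((H259.bx (8 * 2 ^ J)).card : ℝ) := by exact_mod_cast h3
      linarith
    rw [mul_div_assoc', div_le_div_iff_of_pos_right (by positivity)]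
    linarith

/-- **K.8.** -/
theorem k_cov (hp : K_pos) (hcnt : K_cnt) : K_cov := by
  refine ⟨65536 * 20184 + 4734976, by norm_num, ?_⟩
  intro θ h0 h1 r g hS J R M L _ _ hR hMe hLe hM hL
  have hlt := lt_half h1
  refine (ET_mono hp h0 hlt (G := fun ω => 65536 * ∑ i ∈ Finset.range (J + 1),
    (16 : ℝ) ^ i / 16 ^ J * (NL (2 ^ J) (2 ^ i) R ω : ℝ) + 4734976 * 4 ^ J / 16 ^ J)
    fun ρ => qs_le R J (unR ρ)).trans ?_
  rw [ET_add, ET_mul_left, ET_const hp h0 hlt, ET_sum hp h0 hlt, add_mul]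
  have hterm : ∀ i ∈ Finset.range (J + 1), 0 ≤ (4 : ℝ) ^ i / 4 ^ J * (2 ^ i / (r i * g i)) := by
    intro i _
    have h2 := hS.pos i
    have h3 : (1 : ℝ) ≤ r i := by exact_mod_cast hS.one_le i
    positivity
  refine add_le_add ?_ ?_
  · rw [mul_assoc]
    refine mul_le_mul_of_nonneg_left ?_ (by norm_num)
    unfold cnt
    rw [Finset.mul_sum]
    refine Finset.sum_le_sum fun i hi => ?_
    rw [Finset.mem_range] at hi
    rw [ET_mul_left]
    have h2 := NL_le (θ := θ) (M := M) (L := L) (n := 2 ^ J) (d := 2 ^ i) (R := R) hp hcnt h0 h1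
      (hS.one_le i) (hS.le i) (pow_le_pow_right₀ (by norm_num) (by omega)) (hS.pos i)
      (hS.le_one i) (hS.arm i) hR hMe hLe hM hL
    refine (mul_le_mul_of_nonneg_left h2 (by positivity)).trans (le_of_eq ?_)
    have h3 : (1 : ℝ) ≤ r i := by exact_mod_cast hS.one_le i
    have h4 := hS.pos i
    have e1 : ∀ j : ℕ, (16 : ℝ) ^ j = 2 ^ j * 2 ^ j * (2 ^ j * 2 ^ j) := fun j => by
      rw [← mul_pow, ← mul_pow]; norm_num
    have e2 : ∀ j : ℕ, (4 : ℝ) ^ j = 2 ^ j * 2 ^ j := fun j => by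
      rw [← mul_pow]; norm_num
    rw [e1, e1, e2, e2]
    push_cast
    have h5 : (2 : ℝ) ^ i ≠ 0 := by positivity
    have h6 : (2 : ℝ) ^ J ≠ 0 := by positivity
    field_simp
  · have h2 : (1 : ℝ) / 4 ^ J ≤ cnt r g J := by
      unfold cnt
      have h3 := Finset.single_le_sum hterm (Finset.mem_range.2 (by omega : 0 < J + 1))
      refine le_trans ?_ h3
      have h4 : r 0 = 1 := le_antisymm (by simpa using hS.le 0) (hS.one_le 0)
      have h5 := hS.pos 0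
      have h6 := hS.le_one 0
      rw [h4, pow_zero, pow_zero, Int.cast_one, one_mul]
      have h7 : (1 : ℝ) ≤ 1 / g 0 := by rw [le_div_iff₀ h5]; linarith
      exact le_mul_of_one_le_right (by positivity) h7
    have e : 4734976 * (4 : ℝ) ^ J / 16 ^ J = 4734976 * (1 / 4 ^ J) := by
      have : (16 : ℝ) ^ J = 4 ^ J * 4 ^ J := by rw [← mul_pow]; norm_num
      rw [this]
      field_simp
    rw [e]
    exact mul_le_mul_of_nonneg_left h2 (by norm_num)

end Vale.Agent.P167.K8
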