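import Vale.Agent.P167.K8.Defs
import Vale.Agent.P167.FK.Sym

/-!
# P167, GQ8: duality on the torus (`K_dual`)
-/

namespace Vale.Agent.P167.K8

open Finset Vale.Agent.P167.FK
open Vale.Agent.P152 (Edge Ori)
open Vale.Agent.P167.A (Grid plane torus red redE nx_red plane_hd)
open Vale.Agent.P167.H685 (orbs orb unR mem_orb mem_orbs orbs_conj redE_surj hd_red orb_mem_orbs)

variable {M L : ℕ} [NeZero M] [NeZero L] (hM : Even M) (hL : Even L)

/-- Shift of the vertices of the torus. -/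
def shT (M L : ℕ) : ZMod M × ZMod L ≃ ZMod M × ZMod L :=
  (Equiv.addRight (1 : ZMod M)).prodCongr (Equiv.refl _)

/-- Shift of the edges of the torus. -/
def shTE (M L : ℕ) : Equiv.Perm (Edge (ZMod M × ZMod L)) := Equiv.sumCongr (shT M L) (shT M L)

/-- Duality of the configurations of the torus. -/
def duT (M L : ℕ) : (ZMod M × ZMod L → Bool) ≃ (ZMod M × ZMod L → Bool) where
  toFun ρ v := !ρ ((shT M L).symm v)
  invFun ρ v := !ρ (shT M L v)
  left_inv ρ := by funext v; simp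
  right_inv ρ := by funext v; simp

omit [NeZero M] [NeZero L] in
theorem red_shift (v : ℤ × ℤ) : (shT M L).symm (red M L v) = red M L (v.1 - 1, v.2) := by
  rw [Equiv.symm_apply_eq]
  simp [shT, red]

omit [NeZero M] [NeZero L] in
theorem shT_red (v : ℤ × ℤ) : shT M L (red M L v) = red M L (v.1 + 1, v.2) := by
  simp [shT, red]

omit [NeZero M] [NeZero L] in
theorem duT_red (ρ : ZMod M × ZMod L → Bool) : duT M L ρ ∘ red M L = du (ρ ∘ red M L) := by
  funext v
  change (!ρ ((shT M L).symm (red M L v))) = !(ρ (red M L (v.1 - 1, v.2)))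
  rw [red_shift]

theorem unR_duT (ρ : ZMod M × ZMod L → Bool) : unR (duT M L ρ) = du (unR ρ) := duT_red ρ

omit [NeZero M] [NeZero L] in
theorem shTE_red (e : Ed) : shTE M L (redE M L e) = redE M L (shE e) := by
  rcases e with v | v
  · change Sum.inl (shT M L (red M L v)) = Sum.inl (red M L (v.1 + 1, v.2))
    rw [shT_red]
  · change Sum.inr (shT M L (red M L v)) = Sum.inr (red M L (v.1 + 1, v.2))
    rw [shT_red]

theorem nx_dual (ρ : ZMod M × ZMod L → Bool) (e : Edge (ZMod M × ZMod L)) :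
    (torus M L hM hL).nx (duT M L ρ) (shTE M L ((torus M L hM hL).nx ρ e)) = shTE M L e := by
  obtain ⟨e, rfl⟩ := redE_surj e
  rw [nx_red, shTE_red, nx_red, duT_red, (syR_du _).n, shTE_red]

theorem turn_dual (ρ : ZMod M × ZMod L → Bool) (e : Edge (ZMod M × ZMod L)) :
    (torus M L hM hL).turn (duT M L ρ) (shTE M L ((torus M L hM hL).nx ρ e)) =
      -(torus M L hM hL).turn ρ e := by
  obtain ⟨e, rfl⟩ := redE_surj e
  unfold Grid.turn
  rw [nx_red, shTE_red, hd_red, hd_red, plane_hd, plane_hd, (syR_du (ρ ∘ red M L)).h, tlv_nx]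
  have h : duT M L ρ (red M L (shV (hdv e))) = !ρ (red M L (hdv e)) := by
    change (!ρ ((shT M L).symm (red M L (shV (hdv e))))) = _
    rw [red_shift]
    simp [shV]
  rw [h]
  cases ρ (red M L (hdv e)) <;> simp

theorem orbs_inv {α : Type*} [Fintype α] [DecidableEq α] (σ : Equiv.Perm α) :
    orbs σ⁻¹ = orbs σ := by
  have h : ∀ x, orb σ⁻¹ x = orb σ x := by
    intro x
    ext y
    rw [mem_orb, mem_orb, Equiv.Perm.sameCycle_inv]
  ext ℓ
  simp only [mem_orbs, h]

/-- An orbit is invariant. -/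
theorem orb_map_self {α : Type*} [Fintype α] [DecidableEq α] {σ : Equiv.Perm α} {ℓ : Finset α}
    (h : ℓ ∈ orbs σ) : ℓ.map σ.toEmbedding = ℓ := by
  obtain ⟨x, rfl⟩ := mem_orbs.1 h
  ext y
  rw [Finset.mem_map_equiv, mem_orb, mem_orb]
  constructor
  · intro h
    exact h.trans ⟨1, by simp⟩
  · intro h
    exact h.trans ⟨-1, by simp⟩

include hM hL in
theorem wT_dual (θ : ℝ) (ρ : ZMod M × ZMod L → Bool) : wT θ M L (duT M L ρ) = wT θ M L ρ := by
  classical
  unfold wT Wa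
  rw [dif_pos ⟨hM, hL⟩, dif_pos ⟨hM, hL⟩]
  set T := torus M L hM hL with hT
  have hconj : orbs (T.nxP (duT M L ρ)) =
      (orbs (T.nxP ρ)).image (fun ℓ => ℓ.map (shTE M L).toEmbedding) := by
    rw [← orbs_inv (T.nxP ρ)]
    refine orbs_conj (shTE M L) fun x => ?_
    have h := nx_dual hM hL ρ ((T.nxP ρ)⁻¹ x)
    have h2 : T.nx ρ ((T.nxP ρ)⁻¹ x) = x := (T.nxP ρ).apply_symm_apply x
    rw [← hT, h2] at h
    exact h.symm
  rw [hconj, Finset.prod_image fun ℓ _ ℓ' _ h => Finset.map_injective _ h]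
  refine Finset.prod_congr rfl fun ℓ hℓ => ?_
  -- reindexing by `nx`
  have hinv : ℓ.map (T.nxP ρ).toEmbedding = ℓ := orb_map_self hℓ
  have h1 : ∑ e ∈ ℓ.map (shTE M L).toEmbedding,
      (θ / 4 * (T.turn (duT M L ρ) e : ℝ) + (0 : Edge (ZMod M × ZMod L) → ℝ) e * (T.sg e : ℝ)) =
      -∑ e ∈ ℓ, (θ / 4 * (T.turn ρ e : ℝ) + (0 : Edge (ZMod M × ZMod L) → ℝ) e * (T.sg e : ℝ)) := by
    rw [Finset.sum_map]
    conv_lhs => rw [← hinv]
    rw [Finset.sum_map, ← Finset.sum_neg_distrib]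
    refine Finset.sum_congr rfl fun e _ => ?_
    have h2 := turn_dual hM hL ρ e
    rw [← hT] at h2
    simp only [Equiv.toEmbedding_apply, Pi.zero_apply, zero_mul, add_zero, Grid.nxP_apply]
    rw [h2]
    push_cast
    ring
  rw [h1, Real.cos_neg]

/-- K.4 -/
theorem k_dual : K_dual := by
  intro θ M L _ _ F hM hL
  unfold ET
  congr 1
  rw [← (duT M L).sum_comp fun ρ => wT θ M L ρ * F (unR ρ)]
  refine Finset.sum_congr rfl fun ρ _ => ?_
  rw [wT_dual hM hL, unR_duT]

end Vale.Agent.P167.K8
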