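import Vale.Agent.P167.K8.Defs
import Vale.Agent.P167.FKA.All

/-!
# P167, GQ8: expected number of the crossing clusters of a free domain
-/

namespace Vale.Agent.P167.K8

open Finset Filter Topology
open Vale.Agent.P145.FB (PStep PConn)
open Vale.Agent.P167.FK Vale.Agent.P167.FKA
open Vale.Agent.P167.H166 (cl CC CC_finite cl_eq cl_parity)
open Vale.Agent.P167.H259 (f_markov f_fkg f_comp f_comp2)
open Relation

theorem sep_free {D : Finset (ℤ × ℤ)} {η : Cfg} (hsep : Sep Set.univ D η) (S : Finset (ℤ × ℤ))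
    {u v : ℤ × ℤ} (hue : Even (u.1 + u.2)) (hu : ∃ a ∈ D, Cor a u) (h : PC (cf D η S) u v) :
    PC (cf D eta0 S) u v ∧ ∃ a ∈ D, Cor a v := by
  induction h with
  | refl => exact ⟨ReflTransGen.refl, hu⟩
  | @tail y y' huy hst ih =>
    have hye : Even (y.1 + y.2) := even_of_rtg hue huy
    obtain ⟨hc1, hc2⟩ := cor_of_step hst
    obtain ⟨q, hq⟩ : ∃ q : ℤ × ℤ, q = (min y.1 y'.1, min y.2 y'.2) := ⟨_, rfl⟩
    rw [← hq] at hc1 hc2
    have hop : cf D η S q = true := by
      have := hst.2.2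
      rw [← hq] at this
      exact this
    obtain ⟨ih1, a, ha, hay⟩ := ih
    have hqD : q ∈ D := by
      by_contra hqD
      rw [cf_out hqD] at hop
      exact hsep q (Set.mem_univ _) hqD hop a ha y hye hc1 hay
    refine ⟨ih1.tail ⟨hst.1, hst.2.1, ?_⟩, q, hqD, hc2⟩
    rw [← hq]
    have h2 : cf D η S q = cf D eta0 S q := by simp [cf, hqD]
    show cf D eta0 S q = true
    rw [← h2]
    exact hop

theorem PC_eta0 {D S : Finset (ℤ × ℤ)} {s : ℤ × ℤ} :
    {u | PC (cf D eta0 S) s u} = cl (Op D (cf D eta0 S)) s := by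
  have : op (cf D eta0 S) = Op D (cf D eta0 S) := by
    ext v
    simp only [op, Op, Set.mem_ofPred_eq]
    constructor
    · intro h
      refine ⟨?_, h⟩
      by_contra hv
      rw [cf_out hv] at h
      simp [eta0] at h
    · exact fun h => h.2
  unfold PC cl
  rw [this]

theorem NP_eq {D S : Finset (ℤ × ℤ)} {x : ℤ × ℤ} {r R : ℤ} :
    NP x r R (cf D eta0 S) = kc x (r - 1) (R + 1) D (cf D eta0 S) := by
  unfold NP kc
  congr 1
  ext C
  simp only [CC, Set.mem_ofPred_eq]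
  constructor
  · rintro ⟨s, t, h1, h2, h3, h4, rfl⟩
    refine ⟨s, Int.even_iff.1 h1, by linarith, PC_eta0, t, h4, by linarith⟩
  · rintro ⟨s, h1, h2, rfl, t, ht, h3⟩
    rw [← PC_eta0] at ht
    exact ⟨s, t, Int.even_iff.2 h1, by linarith, by linarith, ht, PC_eta0.symm⟩

theorem k_free : K_free := by
  intro Q r R g hQ hr hrR hg hA x D
  have hQ0 : 0 < Q := by linarith
  rcases hrR.eq_or_lt with h | hlt
  · -- degenerate case: contradiction
    exfalso
    subst h
    have h1 := hA 0 ∅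
    have h2 : Pr Q ∅ eta0 {ω | ArmPx 0 r r ω} = 1 := by
      have : {ω : Cfg | ArmPx 0 r r ω} = Set.univ := by
        ext ω
        simp only [Set.mem_ofPred_eq, Set.mem_univ, iff_true]
        refine ⟨(r, r), (r, r), ⟨r, rfl⟩, ?_, ?_, ?_⟩
        · simp [nm, abs_of_nonneg hr]
        · simp [nm, abs_of_nonneg hr]
        · refine ⟨?_, ReflTransGen.refl⟩
          simp [nm, abs_of_nonneg hr]
      rw [this]
      unfold Pr
      have h3 : (Set.univ : Set Cfg).indicator (1 : Cfg → ℝ) = fun _ => 1 := by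
        funext ω
        simp
      rw [h3]
      exact Ex_const hQ0 1
    linarith
  have hg1 : g ≤ 1 := by
    have h1 := hA x D
    have h2 := Pr_nonneg (Q := Q) (D := D) (η := eta0) hQ0 {ω | ArmPx x r R ω}
    linarith
  have hrR' : (r - 1) + 2 < R + 1 := by omega
  have hA' : ∀ (D : Finset (ℤ × ℤ)) (η : Cfg), (D : Set (ℤ × ℤ)) ⊆ Set.univ → Good η →
      Sep Set.univ D η → Pr Q D η {ω | 1 ≤ kc x (r - 1) (R + 1) D ω} ≤ 1 - g := by
    intro D η _ hη hsep
    have h1 : Pr Q D η {ω | 1 ≤ kc x (r - 1) (R + 1) D ω} ≤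
        Pr Q D eta0 {ω | 1 ≤ kc x (r - 1) (R + 1) D ω} := by
      refine f_comp2 Q D η _ _ hQ hη f_good.2.1 (fun S _ a ha _ h => ?_) incF_pos loc_pos
      exact (sep_free hsep S (cor_pa a).2 ⟨a, ha, (cor_pa a).1⟩ h).1
    refine h1.trans (le_trans ?_ (hA x D))
    refine Pr_mono hQ0 fun ω hω => ?_
    have := arm_of_kc hrR' hω
    simpa using this
  -- the bound for every `y > 1`
  have key : ∀ y : ℝ, 1 < y → y * (1 - g) < 1 →
      Ex Q D eta0 (fun ω => (kc x (r - 1) (R + 1) D ω : ℝ)) ≤ 1 / (1 - y * (1 - g)) := by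
    intro y hy hya
    have hpos : 0 < 1 - y * (1 - g) := by linarith
    have h1 := kc_exp hQ0 f_markov f_good hrR' (a := 1 - g) (y := y)
      (β := (y - 1) / (1 - y * (1 - g))) hy.le hya (div_mul_cancel₀ _ hpos.ne') hA' _ D eta0
      le_rfl (Set.subset_univ _) f_good.2.1 (fun v _ hv h => by simp [eta0] at h)
    have h2 : Ex Q D eta0 (fun ω => 1 + (y - 1) * (kc x (r - 1) (R + 1) D ω : ℝ)) ≤
        Ex Q D eta0 (fun ω => y ^ kc x (r - 1) (R + 1) D ω) := by
      refine Ex_mono hQ0 fun S _ => ?_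
      have h3 := one_add_mul_le_pow (show (-2 : ℝ) ≤ y - 1 by linarith)
        (kc x (r - 1) (R + 1) D (cf D eta0 S))
      have e : (1 : ℝ) + (y - 1) = y := by ring
      rw [e] at h3
      linarith
    rw [Ex_add, Ex_const hQ0, Ex_mul_left] at h2
    have h4 : Pr Q D eta0 {ω | 1 ≤ kc x (r - 1) (R + 1) D ω} ≤ 1 := Pr_le_one hQ0 _
    have h5 : (y - 1) / (1 - y * (1 - g)) * Pr Q D eta0 {ω | 1 ≤ kc x (r - 1) (R + 1) D ω} ≤
        (y - 1) / (1 - y * (1 - g)) :=
      mul_le_of_le_one_right (div_nonneg (by linarith) hpos.le) h4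
    have h6 : (y - 1) * Ex Q D eta0 (fun ω => (kc x (r - 1) (R + 1) D ω : ℝ)) ≤
        (y - 1) * (1 / (1 - y * (1 - g))) := by
      rw [mul_one_div]
      linarith
    exact le_of_mul_le_mul_left h6 (by linarith)
  have h1 : Ex Q D eta0 (fun ω => (NP x r R ω : ℝ)) =
      Ex Q D eta0 (fun ω => (kc x (r - 1) (R + 1) D ω : ℝ)) :=
    Ex_congr fun S _ => by rw [NP_eq]
  rw [h1]
  have hlim : Tendsto (fun n : ℕ => 1 / (1 - (1 + 1 / ((n : ℝ) + 1)) * (1 - g))) atTop
      (𝓝 (1 / (1 - (1 + 0) * (1 - g)))) := by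
    refine Tendsto.div tendsto_const_nhds (Tendsto.sub tendsto_const_nhds
      (Tendsto.mul (Tendsto.add tendsto_const_nhds tendsto_one_div_add_atTop_nhds_zero_nat)
        tendsto_const_nhds)) ?_
    have : 1 - (1 + 0) * (1 - g) = g := by ring
    rw [this]
    exact hg.ne'
  have e0 : 1 / (1 - (1 + 0) * (1 - g)) = 1 / g := by ring_nf
  rw [e0] at hlim
  refine ge_of_tendsto hlim ?_
  have h2 : Tendsto (fun n : ℕ => (1 + 1 / ((n : ℝ) + 1)) * (1 - g)) atTop
      (𝓝 ((1 + 0) * (1 - g))) :=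
    Tendsto.mul (Tendsto.add tendsto_const_nhds tendsto_one_div_add_atTop_nhds_zero_nat)
      tendsto_const_nhds
  have h3 : (1 + 0) * (1 - g) < 1 := by linarith
  filter_upwards [h2.eventually (gt_mem_nhds h3)] with n hn
  exact key _ (by
    have : (0 : ℝ) < 1 / ((n : ℝ) + 1) := by positivity
    linarith) hn

end Vale.Agent.P167.K8
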