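import Vale.Agent.P167.K8.Free
import Vale.Agent.P167.K8.Dual
import Vale.Agent.P167.H166.Arc

/-!
# P167, GQ8: linear independence, expectation on the torus, number of the inner crossing loops
-/

namespace Vale.Agent.P167.K8

open Finset Filter Topology
open Vale.Agent.P145.FB (PStep PConn)
open Vale.Agent.P167.FK Vale.Agent.P167.FKA
open Vale.Agent.P167.H166 (cl CC CC_finite cl_eq cl_parity)
open Vale.Agent.P167.H685 (unR)
open Relation

/-- Linear independence: the functions `w i` are determined up to zero by their values at the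
representatives. -/
theorem la_le {Λ S X : Type*} [Fintype Λ] [Fintype S] [DecidableEq Λ] (w : Λ → X → ℚ)
    (rep : S → X) (p d : Λ → X)
    (hpd : ∀ i j, w i (p j) - w i (d j) = if i = j then 1 else 0)
    (hp : ∀ j, (∃ s, ∀ i, w i (p j) = w i (rep s)) ∨ ∀ i, w i (p j) = 0)
    (hd : ∀ j, (∃ s, ∀ i, w i (d j) = w i (rep s)) ∨ ∀ i, w i (d j) = 0) :
    Fintype.card Λ ≤ Fintype.card S := by
  classical
  let M : Matrix S Λ ℚ := fun s i => w i (rep s)
  have hinj : Function.Injective M.mulVecLin := by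
    rw [injective_iff_map_eq_zero]
    intro a ha
    have hz : ∀ x : X, ((∃ s, ∀ i, w i x = w i (rep s)) ∨ ∀ i, w i x = 0) →
        ∑ i, w i x * a i = 0 := by
      rintro x (⟨s, hs⟩ | h0)
      · have h1 : ∑ i, w i (rep s) * a i = 0 := congrFun ha s
        rw [← h1]
        exact Finset.sum_congr rfl fun i _ => by rw [hs i]
      · exact Finset.sum_eq_zero fun i _ => by rw [h0 i, zero_mul]
    funext j
    have h1 := hz _ (hp j)
    have h2 := hz _ (hd j)
    have h3 : ∑ i, (w i (p j) - w i (d j)) * a i = 0 := by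
      simp only [sub_mul, Finset.sum_sub_distrib]
      rw [h1, h2, sub_zero]
    simp only [hpd] at h3
    simpa using h3
  have h := LinearMap.finrank_le_finrank_of_injective hinj
  rw [Module.finrank_fintype_fun_eq_card, Module.finrank_fintype_fun_eq_card] at h
  exact h

/-! ### Expectation on the torus -/

section ET

variable {θ : ℝ} {M L : ℕ} [NeZero M] [NeZero L]

theorem sum_wT_pos (hp : K_pos) (h0 : 0 ≤ θ) (h1 : θ < Real.pi / 2) :
    0 < ∑ ρ : ZMod M × ZMod L → Bool, wT θ M L ρ :=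
  Finset.sum_pos (fun ρ _ => hp θ h0 h1 M L ρ) Finset.univ_nonempty

theorem ET_mono (hp : K_pos) (h0 : 0 ≤ θ) (h1 : θ < Real.pi / 2) {F G : Cfg → ℝ}
    (h : ∀ ρ : ZMod M × ZMod L → Bool, F (unR ρ) ≤ G (unR ρ)) : ET θ M L F ≤ ET θ M L G := by
  unfold ET
  refine div_le_div_of_nonneg_right ?_ (sum_wT_pos hp h0 h1).le
  exact Finset.sum_le_sum fun ρ _ => mul_le_mul_of_nonneg_left (h ρ) (hp θ h0 h1 M L ρ).le

theorem ET_congr {F G : Cfg → ℝ} (h : ∀ ρ : ZMod M × ZMod L → Bool, F (unR ρ) = G (unR ρ)) :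
    ET θ M L F = ET θ M L G := by
  unfold ET
  congr 1
  exact Finset.sum_congr rfl fun ρ _ => by rw [h ρ]

theorem ET_add (F G : Cfg → ℝ) : ET θ M L (fun ω => F ω + G ω) = ET θ M L F + ET θ M L G := by
  unfold ET
  rw [← add_div, ← Finset.sum_add_distrib]
  congr 1
  exact Finset.sum_congr rfl fun ρ _ => by ring

theorem ET_mul_left (a : ℝ) (F : Cfg → ℝ) : ET θ M L (fun ω => a * F ω) = a * ET θ M L F := by
  unfold ET
  rw [← mul_div_assoc, Finset.mul_sum]
  congr 1
  exact Finset.sum_congr rfl fun ρ _ => by ring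

theorem ET_const (hp : K_pos) (h0 : 0 ≤ θ) (h1 : θ < Real.pi / 2) (a : ℝ) :
    ET θ M L (fun _ => a) = a := by
  unfold ET
  rw [← Finset.sum_mul, mul_div_right_comm, div_self (sum_wT_pos hp h0 h1).ne', one_mul]

theorem ET_nonneg (hp : K_pos) (h0 : 0 ≤ θ) (h1 : θ < Real.pi / 2) {F : Cfg → ℝ}
    (h : ∀ ω, 0 ≤ F ω) : 0 ≤ ET θ M L F := by
  have := ET_mono (θ := θ) (M := M) (L := L) hp h0 h1 (F := fun _ => 0) (G := F) fun ρ => h _
  rwa [ET_const hp h0 h1] at this

end ET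

theorem lt_half {θ : ℝ} (h : θ ≤ Real.pi / 3) : θ < Real.pi / 2 := by
  have := Real.pi_pos
  linarith

/-! ### Inner loops -/

theorem mem_Bz0 {R : ℤ} {v : ℤ × ℤ} : v ∈ Bq 0 R ↔
    -R ≤ v.1 ∧ v.1 < R ∧ -R ≤ v.2 ∧ v.2 < R := by
  simp only [Bq, Finset.mem_product, Finset.mem_Ico, Prod.fst_zero, Prod.snd_zero, zero_sub,
    zero_add]
  tauto

theorem Lin_finite (R : ℤ) (ω : Cfg) : (Lin R ω).Finite := by
  classical
  have h := Vale.Agent.P167.H166.touch_finite (Bq 0 R)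
  refine (h.toFinset.powerset.finite_toSet).subset ?_
  rintro ℓ ⟨_, h2⟩
  rw [Finset.mem_coe, Finset.mem_powerset]
  intro e he
  rw [Set.Finite.mem_toFinset]
  exact Or.inl (h2 (Finset.mem_image_of_mem _ he))

/-- The squares incident to a site surrounded by an inner loop are in the box. -/
theorem W_zero {R : ℤ} {ω : Cfg} {ℓ : Finset Ed} (hl : ℓ ∈ Lin R ω) {t v : ℤ × ℤ} (hc : Cor v t)
    (hv : v ∉ Bq 0 R) : W ℓ t = 0 := by
  by_contra hne
  have h1 := s_out ω ℓ hl.1 (-R) (R - 1) (-R) (R - 1) (fun u hu => by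
    have := mem_Bz0.1 (hl.2 hu)
    omega) t hne
  apply hv
  rw [mem_Bz0]
  unfold Cor at hc
  omega

theorem W_DC {ω : Cfg} {ℓ : Finset Ed} (h : IsLoop ω ℓ) {s t : ℤ × ℤ} (hs : Odd (s.1 + s.2))
    (hst : DC ω s t) : W ℓ s = W ℓ t := by
  have key : W ℓ s = W ℓ t ∧ Odd (t.1 + t.2) := by
    induction hst with
    | refl => exact ⟨rfl, hs⟩
    | tail _ h1 ih =>
      refine ⟨ih.1.trans (s_step ω ℓ h _ _ (Or.inr ⟨ih.2, h1⟩)), ?_⟩
      have h2 := ih.2
      rw [Int.odd_iff] at h2 ⊢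
      obtain ⟨h3, h4, -⟩ := h1
      omega
  exact key.1

/-- The right sites of a loop are in one dual cluster. -/
theorem DC_of_loop {ω : Cfg} {ℓ : Finset Ed} (h : IsLoop ω ℓ) {e e' : Ed} (he : e ∈ ℓ)
    (he' : e' ∈ ℓ) : DC ω (rs e) (rs e') := by
  refine h.induct (p := fun a => DC ω (rs e) (rs a)) (fun a _ ha => ?_) he he' ReflTransGen.refl
  obtain ⟨h1, h2⟩ := H166.nx_step ω a
  cases hb : ω (hdv a) with
  | true => rw [(h1 hb).2]; exact ha
  | false =>
    refine ha.tail (H166.PStep_mono ?_ (h2 hb).2)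
    rw [Set.singleton_subset_iff]
    show ¬ (ω (hdv a) = true)
    rw [hb]
    simp

theorem PC_du {ω : Cfg} {s t : ℤ × ℤ} : PC (du ω) (FKA.sh s) (FKA.sh t) ↔ DC ω s t := by
  constructor
  · intro h
    have key : ∀ a b, PC (du ω) a b → DC ω (FKA.shi a) (shi b) := by
      intro a b hab
      induction hab with
      | refl => exact ReflTransGen.refl
      | tail _ h1 ih => exact ih.tail (step_shi (fun v hv => op_du' hv) h1)
    have := key _ _ h
    rwa [shi_sh, shi_sh] at this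
  · intro h
    induction h with
    | refl => exact ReflTransGen.refl
    | tail _ h1 ih => exact ih.tail (step_sh (fun v hv => op_du hv) h1)

theorem PC_mono' {ω ω' : Cfg} (h : ∀ v, ω v = true → ω' v = true) {s t : ℤ × ℤ} (hst : PC ω s t) :
    PC ω' s t := by
  refine ReflTransGen.mono (fun a b hab => ⟨hab.1, hab.2.1, h _ hab.2.2⟩) _ _ hst

theorem fin_le {B : Finset (ℤ × ℤ)} {ω : Cfg} {v : ℤ × ℤ} (h : fin B ω v = true) : ω v = true := by
  classical
  unfold fin at h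
  rw [decide_eq_true_iff] at h
  exact h.2.1

theorem Inn.ofPC {B : Finset (ℤ × ℤ)} {ω : Cfg} {s t : ℤ × ℤ} (h : Inn B ω s) (hst : PC ω s t) :
    Inn B ω t := fun u hu v hv => h u (hst.trans hu) v hv

/-- An even corner of a square is one of its two primal corners. -/
theorem cor_even {v t : ℤ × ℤ} (h : Cor v t) (ht : Even (t.1 + t.2)) :
    FK.pa v = t ∨ FK.pb v = t := by
  unfold Cor at h
  unfold FK.pa FK.pb
  rw [Int.even_iff] at ht
  simp only [Int.even_iff]
  split_ifs with h1 <;> simp only [Prod.ext_iff] <;> omega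

/-- Inside an inner cluster the connections are the same. -/
theorem PC_fin {B : Finset (ℤ × ℤ)} {ω : Cfg} {s t : ℤ × ℤ} (hs : Even (s.1 + s.2))
    (hi : Inn B ω s) : PC (fin B ω) s t ↔ PC ω s t := by
  classical
  constructor
  · exact PC_mono' fun v hv => fin_le hv
  · intro h
    have key : PC (fin B ω) s t ∧ PC ω s t ∧ Even (t.1 + t.2) := by
      induction h with
      | refl => exact ⟨ReflTransGen.refl, ReflTransGen.refl, hs⟩
      | @tail y y' hy hst ih =>
        obtain ⟨ih1, ih2, ih3⟩ := ih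
        have h3 := FKA.even_step hst
        obtain ⟨hc1, hc2⟩ := cor_of_step hst
        obtain ⟨q, hq⟩ : ∃ q : ℤ × ℤ, q = (min y.1 y'.1, min y.2 y'.2) := ⟨_, rfl⟩
        rw [← hq] at hc1 hc2
        have hop : ω q = true := by
          have := hst.2.2
          rw [← hq] at this
          exact this
        have hye' : Even (y'.1 + y'.2) := h3.1 ih3
        have hyy : PC ω s y' := ih2.tail hst
        have hqB : q ∈ B := hi y ih2 q (cor_even hc1 ih3)
        have hpa : PC ω s (FK.pa q) := by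
          rcases cor_even hc1 ih3 with h4 | h4
          · rw [h4]; exact ih2
          · have hne : y ≠ y' := by
              rintro rfl
              have := hst.1
              omega
            rcases cor_even hc2 hye' with h5 | h5
            · rw [h5]; exact hyy
            · exact absurd (h4.symm.trans h5) hne
        refine ⟨ih1.tail ⟨hst.1, hst.2.1, ?_⟩, hyy, hye'⟩
        rw [← hq]
        show fin B ω q = true
        unfold fin
        rw [decide_eq_true_iff]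
        exact ⟨hqB, hop, hi.ofPC hpa⟩
    exact key.1

theorem NPset_finite (x : ℤ × ℤ) (r R : ℤ) (ω : Cfg) :
    {C : Set (ℤ × ℤ) | ∃ s t, Even (s.1 + s.2) ∧ nm (s - x) ≤ r ∧ R ≤ nm (t - x) ∧
      PC ω s t ∧ C = {u | PC ω s u}}.Finite := by
  refine ((H166.box_finite x r).image (fun s => {u | PC ω s u})).subset ?_
  rintro C ⟨s, t, -, h2, -, -, h3⟩
  exact ⟨s, h2, h3.symm⟩

theorem PC_sym {ω : Cfg} {s t : ℤ × ℤ} (h : PC ω s t) : PC ω t s := by
  induction h with
  | refl => exact ReflTransGen.refl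
  | tail _ h2 ih => exact ReflTransGen.head h2.symm ih

theorem nm_sub_le {a b x : ℤ × ℤ} (h : |a.1 - b.1| ≤ 1 ∧ |a.2 - b.2| ≤ 1) :
    nm (a - x) ≤ nm (b - x) + 1 := by
  simp only [nm, Prod.fst_sub, Prod.snd_sub]
  obtain ⟨h1, h2⟩ := h
  have e1 : |a.1 - x.1| ≤ |b.1 - x.1| + 1 := by
    calc |a.1 - x.1| = |(a.1 - b.1) + (b.1 - x.1)| := by ring_nf
      _ ≤ |a.1 - b.1| + |b.1 - x.1| := abs_add_le _ _
      _ ≤ _ := by linarith
  have e2 : |a.2 - x.2| ≤ |b.2 - x.2| + 1 := by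
    calc |a.2 - x.2| = |(a.2 - b.2) + (b.2 - x.2)| := by ring_nf
      _ ≤ |a.2 - b.2| + |b.2 - x.2| := abs_add_le _ _
      _ ≤ _ := by linarith
  have e3 := le_max_left |b.1 - x.1| |b.2 - x.2|
  have e4 := le_max_right |b.1 - x.1| |b.2 - x.2|
  exact max_le (by linarith) (by linarith)

theorem near_ls (e : Ed) : |(ls e).1 - (hdv e).1| ≤ 1 ∧ |(ls e).2 - (hdv e).2| ≤ 1 := by
  obtain ⟨h1, h2, -⟩ := H166.corner e
  rw [abs_le, abs_le]
  omega

theorem near_rs (e : Ed) : |(rs e).1 - (hdv e).1| ≤ 1 ∧ |(rs e).2 - (hdv e).2| ≤ 1 := by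
  obtain ⟨-, -, h1, h2, -⟩ := H166.corner e
  rw [abs_le, abs_le]
  omega

/-- The number of the inner crossing loops is at most the number of the inner crossing clusters. -/
theorem inner_le (ω : Cfg) (x : ℤ × ℤ) (r r' R : ℤ) :
    Set.ncard {ℓ | ℓ ∈ Lin R ω ∧ (∃ v ∈ vs ℓ, nm (v - x) ≤ r - 3) ∧
      ∃ v ∈ vs ℓ, r' + 3 ≤ nm (v - x)} ≤
    NP x r r' (fin (Bq 0 R) ω) + NP x r r' (fin (Bq 0 (R + 1)) (du ω)) := by
  classical
  set Λ : Set (Finset Ed) := {ℓ | ℓ ∈ Lin R ω ∧ (∃ v ∈ vs ℓ, nm (v - x) ≤ r - 3) ∧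
      ∃ v ∈ vs ℓ, r' + 3 ≤ nm (v - x)} with hΛ
  have hf : Λ.Finite := (Lin_finite R ω).subset fun ℓ h => h.1
  set C1 : Set (Set (ℤ × ℤ)) := {C | ∃ s t, Even (s.1 + s.2) ∧ nm (s - x) ≤ r ∧
    r' ≤ nm (t - x) ∧ PC (fin (Bq 0 R) ω) s t ∧ C = {u | PC (fin (Bq 0 R) ω) s u}} with hC1
  set C2 : Set (Set (ℤ × ℤ)) := {C | ∃ s t, Even (s.1 + s.2) ∧ nm (s - x) ≤ r ∧
    r' ≤ nm (t - x) ∧ PC (fin (Bq 0 (R + 1)) (du ω)) s t ∧
    C = {u | PC (fin (Bq 0 (R + 1)) (du ω)) s u}} with hC2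
  have hf1 : C1.Finite := NPset_finite _ _ _ _
  have hf2 : C2.Finite := NPset_finite _ _ _ _
  have i0 := hf.fintype
  have i1 := hf1.fintype
  have i2 := hf2.fintype
  have hr1 : ∀ C : C1, ∃ s : ℤ × ℤ, Even (s.1 + s.2) ∧ C.1 = {u | PC (fin (Bq 0 R) ω) s u} :=
    fun C => by obtain ⟨s, t, h1, -, -, -, h2⟩ := C.2; exact ⟨s, h1, h2⟩
  have hr2 : ∀ C : C2, ∃ s : ℤ × ℤ, Even (s.1 + s.2) ∧
      C.1 = {u | PC (fin (Bq 0 (R + 1)) (du ω)) s u} :=
    fun C => by obtain ⟨s, t, h1, -, -, -, h2⟩ := C.2; exact ⟨s, h1, h2⟩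
  choose s1 hs1 hs1' using hr1
  choose s2 hs2 hs2' using hr2
  have hex : ∀ ℓ : Λ, ∃ a ∈ ℓ.1, ∃ b ∈ ℓ.1, nm (hdv a - x) ≤ r - 3 ∧
      r' + 3 ≤ nm (hdv b - x) := by
    rintro ⟨ℓ, h1, ⟨v, hv, hv1⟩, w, hw, hw1⟩
    unfold vs at hv hw
    rw [Finset.mem_image] at hv hw
    obtain ⟨a, ha, rfl⟩ := hv
    obtain ⟨b, hb, rfl⟩ := hw
    exact ⟨a, ha, b, hb, hv1, hw1⟩
  choose a ha b hb ha1 hb1 using hex
  have key := la_le (Λ := Λ) (S := C1 ⊕ C2) (X := ℤ × ℤ) (fun ℓ s => (W ℓ.1 s : ℚ))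
    (Sum.elim s1 (fun C => FKA.shi (s2 C))) (fun ℓ => ls (a ℓ)) (fun ℓ => rs (a ℓ)) ?_ ?_ ?_
  · rw [Fintype.card_sum] at key
    unfold NP
    rw [← hC1, ← hC2, ← Nat.card_coe_set_eq, ← Nat.card_coe_set_eq, ← Nat.card_coe_set_eq,
      Nat.card_eq_fintype_card, Nat.card_eq_fintype_card, Nat.card_eq_fintype_card]
    exact key
  · intro i j
    have h6 := s_jump ω i.1 i.2.1.1 (a j)
    by_cases h7 : i = j
    · subst h7
      rw [if_pos (ha i)] at h6
      simp only [h6]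
      simp
    · have h8 : a j ∉ i.1 :=
        (s_two ω i.1 j.1 i.2.1.1 j.2.1.1 (fun h => h7 (Subtype.ext h))).1 _ (ha j)
      rw [if_neg h8] at h6
      simp only [h6, h7]
      simp
  · intro j
    have hev : Even ((ls (a j)).1 + (ls (a j)).2) := even_ls _
    by_cases hi : Inn (Bq 0 R) ω (ls (a j))
    · left
      have hmem : {u | PC (fin (Bq 0 R) ω) (ls (a j)) u} ∈ C1 := by
        refine ⟨ls (a j), ls (b j), hev, ?_, ?_, ?_, rfl⟩
        · have := nm_sub_le (x := x) (near_ls (a j))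
          have := ha1 j
          linarith
        · have h1 := near_ls (b j)
          rw [abs_sub_comm, abs_sub_comm (ls (b j)).2] at h1
          have := nm_sub_le (x := x) h1
          have := hb1 j
          linarith
        · exact (PC_fin hev hi).2 (PC_of_loop j.2.1.1 (ha j) (hb j))
      refine ⟨Sum.inl ⟨_, hmem⟩, fun i => ?_⟩
      simp only [Sum.elim_inl]
      have h1 := hs1' ⟨_, hmem⟩
      have h2 : ls (a j) ∈ {u | PC (fin (Bq 0 R) ω) (ls (a j)) u} := ReflTransGen.refl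
      simp only at h1
      rw [h1] at h2
      have h3 : PC ω (s1 ⟨_, hmem⟩) (ls (a j)) := PC_mono' (fun v hv => fin_le hv) h2
      rw [W_PC i.2.1.1 (hs1 _) h3]
    · right
      intro i
      unfold Inn at hi
      push Not at hi
      obtain ⟨t, ht, v, hv, hvB⟩ := hi
      have hc : Cor v t := by
        rcases hv with hv | hv
        · rw [← hv]; exact (cor_pa v).1
        · rw [← hv]; exact (cor_pb v).1
      rw [W_PC i.2.1.1 hev ht, W_zero i.2.1 hc hvB]
      simp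
  · intro j
    have hodd : Odd ((rs (a j)).1 + (rs (a j)).2) := odd_rs _
    have hev : Even ((FKA.sh (rs (a j))).1 + (FKA.sh (rs (a j))).2) := by
      rw [Int.odd_iff] at hodd
      rw [Int.even_iff]
      simp only [FKA.sh]
      omega
    by_cases hi : Inn (Bq 0 (R + 1)) (du ω) (FKA.sh (rs (a j)))
    · left
      have hmem : {u | PC (fin (Bq 0 (R + 1)) (du ω)) (FKA.sh (rs (a j))) u} ∈ C2 := by
        have hsh : ∀ e : Ed, |(FKA.sh (rs e)).1 - (rs e).1| ≤ 1 ∧ |(FKA.sh (rs e)).2 - (rs e).2| ≤ 1 := by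
          intro e
          simp [FKA.sh]
        refine ⟨FKA.sh (rs (a j)), FKA.sh (rs (b j)), hev, ?_, ?_, ?_, rfl⟩
        · have := nm_sub_le (x := x) (near_rs (a j))
          have := nm_sub_le (x := x) (hsh (a j))
          have := ha1 j
          linarith
        · have h1 := near_rs (b j)
          rw [abs_sub_comm, abs_sub_comm (rs (b j)).2] at h1
          have h2 := hsh (b j)
          rw [abs_sub_comm, abs_sub_comm (FKA.sh (rs (b j))).2] at h2
          have := nm_sub_le (x := x) h1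
          have := nm_sub_le (x := x) h2
          have := hb1 j
          linarith
        · exact (PC_fin hev hi).2 (PC_du.2 (DC_of_loop j.2.1.1 (ha j) (hb j)))
      refine ⟨Sum.inr ⟨_, hmem⟩, fun i => ?_⟩
      simp only [Sum.elim_inr]
      have h1 := hs2' ⟨_, hmem⟩
      have h2 : FKA.sh (rs (a j)) ∈ {u | PC (fin (Bq 0 (R + 1)) (du ω)) (FKA.sh (rs (a j))) u} :=
        ReflTransGen.refl
      simp only at h1
      rw [h1] at h2
      have h3 : PC (du ω) (s2 ⟨_, hmem⟩) (FKA.sh (rs (a j))) := PC_mono' (fun v hv => fin_le hv) h2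
      rw [← sh_shi (s2 ⟨_, hmem⟩), PC_du] at h3
      have h4 : Odd ((FKA.shi (s2 ⟨_, hmem⟩)).1 + (FKA.shi (s2 ⟨_, hmem⟩)).2) := by
        have := hs2 ⟨_, hmem⟩
        rw [Int.even_iff] at this
        rw [Int.odd_iff]
        simp only [FKA.shi]
        omega
      rw [W_DC i.2.1.1 h4 h3]
    · right
      intro i
      unfold Inn at hi
      push Not at hi
      obtain ⟨t, ht, v, hv, hvB⟩ := hi
      have hc : Cor v t := by
        rcases hv with hv | hv
        · rw [← hv]; exact (cor_pa v).1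
        · rw [← hv]; exact (cor_pb v).1
      have h3 : DC ω (rs (a j)) (FKA.shi t) := by
        rw [← PC_du, sh_shi]
        exact ht
      rw [W_DC i.2.1.1 hodd h3, W_zero (t := FKA.shi t) (v := shi v) i.2.1 ?_ ?_]
      · simp
      · unfold Cor at hc ⊢
        simp only [FKA.shi]
        omega
      · rw [mem_Bz0] at hvB ⊢
        simp only [FKA.shi]
        omega

/-- **K.7.** -/
theorem k_cnt (hp : K_pos) (hd : K_dual) (hrb : K_rb) : K_cnt := by
  intro θ h0 h1 r r' g hr hrr hg hA x R M L _ _ hR hM hL hRM hRL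
  have hQ : 1 ≤ 2 * Real.cos θ := by
    have h2 : Real.cos (Real.pi / 3) ≤ Real.cos θ :=
      Real.cos_le_cos_of_nonneg_of_le_pi h0 (by have := Real.pi_pos; linarith) h1
    rw [Real.cos_pi_div_three] at h2
    linarith
  have hfree := fun D => k_free (2 * Real.cos θ) r r' g hQ (by omega) hrr hg hA x D
  have b1 : ET θ M L (fun ω => (NP x r r' (fin (Bq 0 R) ω) : ℝ)) ≤ 1 / g :=
    hrb θ h0 h1 R M L hR hM hL (by omega) (by omega) (Bq 0 R) (Finset.Subset.refl _)
      (fun ω => (NP x r r' ω : ℝ)) _ (fun ω => Nat.cast_nonneg _) fun D _ => hfree D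
  have b2 : ET θ M L (fun ω => (NP x r r' (fin (Bq 0 (R + 1)) ω) : ℝ)) ≤ 1 / g :=
    hrb θ h0 h1 (R + 1) M L (by omega) hM hL (by omega) (by omega) (Bq 0 (R + 1))
      (Finset.Subset.refl _) (fun ω => (NP x r r' ω : ℝ)) _ (fun ω => Nat.cast_nonneg _)
      fun D _ => hfree D
  have b3 := hd θ M L (fun ω => (NP x r r' (fin (Bq 0 (R + 1)) ω) : ℝ)) hM hL
  calc _ ≤ ET θ M L (fun ω => (NP x r r' (fin (Bq 0 R) ω) : ℝ) +
        (NP x r r' (fin (Bq 0 (R + 1)) (du ω)) : ℝ)) := by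
        refine ET_mono hp h0 (lt_half h1) fun ρ => ?_
        exact_mod_cast inner_le (unR ρ) x r r' R
    _ ≤ 1 / g + 1 / g := by
        rw [ET_add]
        exact add_le_add b1 (b3.le.trans b2)
    _ = 2 / g := by ring

end Vale.Agent.P167.K8
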