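import Vale.Agent.P167.K8.Blk
import Vale.Agent.P167.K8.Cov
import Vale.Agent.P167.K8.DuLoop
import Vale.Agent.P167.K8.Arc
import Vale.Agent.P167.K8.H259.Bas
import Vale.Agent.P167.K8.H259.Flip
import Vale.Agent.P167.K8.H259.Rb
import Vale.Agent.P167.H562.BKd
import Vale.Agent.P167.H685.KS
import Vale.Agent.P167.FKA.Tas2

/-!
# P167, GQ8: Russo-Seymour-Welsh, from the Gaussian input
-/

namespace Vale.Agent.P167.K8

theorem duLoop : DuLoop := fun _ _ h => du_loop h

/-- **One block**, from the Gaussian input. -/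
theorem k_blk (hG : K_G) : K_blk :=
  k_blk_of k_pos k_dual k_rb (H685.k_S k_arc) hG
    (H562.BK.k_bk k_pos k_flip k_shift)
    (k_cov k_pos (k_cnt k_pos k_dual k_rb)) duLoop

/-- **Russo-Seymour-Welsh** for the critical random-cluster model, `1 ≤ q ≤ 4`, from the Gaussian
input. -/
theorem k_rsw_of (hG : K_G) : K_rsw := FKA.k_tas (k_blk hG)

end Vale.Agent.P167.K8
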